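/-
P134 (De Giorgi): the second variation tested with the length of the gradient in a rotation plane.
-/
import Vale.Agent.P134.Limit.Energy

open MeasureTheory Filter Topology
open scoped InnerProductSpace

noncomputable section

namespace Vale.Agent.P134.Periodic

variable {d : ℕ}

/-- Derivatives of solutions solve the linearised equation weakly. -/
lemma Dd_weak {u : Ed d → ℝ} (h : Sol u) (a : Ed d) {φ : Ed d → ℝ} (hφ : ContDiff ℝ 1 φ)
    (hφc : HasCompactSupport φ) :
    ∫ x, (G (Dd u a) φ x + (3 * u x ^ 2 - 1) * (Dd u a x * φ x)) = 0 := by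
  set g : Ed d → ℝ := fun x => u x ^ 3 - u x with hgdef
  have hg : ContDiff ℝ 1 g := ((h.smooth.of_le (by norm_num)).pow 3).sub
    (h.smooth.of_le (by norm_num))
  have hK := hφc.isCompact
  have hA : HasDerivAt (fun t : ℝ => ∫ x, g (x + t • a) * φ x)
      (∫ x, Dd g a (x + (0 : ℝ) • a) * φ x) 0 :=
    hasDerivAt_moving hg hφ.continuous hK (fun _ hx => image_eq_zero_of_notMem_tsupport hx) a 0
  have hB : ∀ l : Fin d, HasDerivAt (fun t : ℝ => ∫ x, pd u l (x + t • a) * pd φ l x)
      (∫ x, Dd (fun y => pd u l y) a (x + (0 : ℝ) • a) * pd φ l x) 0 := fun l =>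
    hasDerivAt_moving (contDiff_pd h.smooth l) (continuous_pd hφ one_ne_zero l) hK
      (fun _ hx => pd_zero_off hx l) a 0
  have hsum := hA.add (HasDerivAt.fun_sum (u := Finset.univ) fun l _ => hB l)
  have hi : ∀ (f : Ed d → ℝ) (l : Fin d), Continuous f → Integrable fun x => f x * pd φ l x :=
    fun f l hf => integrable_off (hf.mul (continuous_pd hφ one_ne_zero l)) hK fun x hx => by
      show f x * pd φ l x = 0
      rw [pd_zero_off hx, mul_zero]
  have hconst : ∀ t : ℝ, (∫ x, g (x + t • a) * φ x)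
      + ∑ l, ∫ x, pd u l (x + t • a) * pd φ l x = 0 := by
    intro t
    have h0 := ibp hφ hφc (h.translate (t • a)).smooth
    rw [← integral_finsetSum _ fun l _ => hi (fun x => pd u l (x + t • a)) l
      ((continuous_pd h.smooth (by norm_num) l).comp (continuous_id.add continuous_const))]
    simp only [(h.translate (t • a)).eqn, G, pd_translate] at h0
    have e1 : (fun x => φ x * (u (x + t • a) ^ 3 - u (x + t • a))) = fun x => g (x + t • a) * φ x := by
      funext x; simp only [hgdef]; ring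
    have e2 : (fun x => ∑ l, pd φ l x * pd u l (x + t • a))
        = fun x => ∑ l, pd u l (x + t • a) * pd φ l x := by
      funext x; exact Finset.sum_congr rfl fun l _ => mul_comm _ _
    rw [e1, e2] at h0
    linarith
  have hz : (∫ x, Dd g a x * φ x) + ∑ l, ∫ x, pd (Dd u a) l x * pd φ l x = 0 := by
    have h1 := hsum.congr_of_eventuallyEq (f₁ := fun _ : ℝ => (0 : ℝ))
      (Eventually.of_forall fun t => (hconst t).symm)
    have h2 := h1.unique (hasDerivAt_const (0 : ℝ) (0 : ℝ))
    simpa [Dd_pd_comm h.smooth] using h2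
  have hD := contDiff_Dd h.smooth a
  have hpt : ∀ x, Dd g a x = (3 * u x ^ 2 - 1) * Dd u a x := fun x => by
    have hu' : HasFDerivAt u (fderiv ℝ u x) x :=
      (h.smooth.differentiable (by norm_num) x).hasFDerivAt
    rw [Dd, show fderiv ℝ g x = _ from ((hu'.pow 3).sub hu').fderiv]
    simp [Dd]
    ring
  have iG : Integrable fun x => G (Dd u a) φ x :=
    integrable_off (continuous_G hD one_ne_zero hφ one_ne_zero) hK fun x hx => by
      simp [G, pd_zero_off hx]
  have ic : Integrable fun x => (3 * u x ^ 2 - 1) * (Dd u a x * φ x) :=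
    integrable_off ((((h.smooth.continuous.pow 2).const_mul 3).sub continuous_const).mul
      (hD.continuous.mul hφ.continuous)) hK fun x hx => by
        show _ * (_ * φ x) = 0
        rw [image_eq_zero_of_notMem_tsupport hx, mul_zero, mul_zero]
  rw [integral_add iG ic]
  simp only [G]
  rw [integral_finsetSum _ fun l _ => hi _ l (continuous_pd hD one_ne_zero l),
    show (fun x => (3 * u x ^ 2 - 1) * (Dd u a x * φ x)) = fun x => Dd g a x * φ x from
      funext fun x => by rw [hpt]; ring]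
  linarith

/-- The squared distance to the axis of the plane, plus one. -/
def rho (a b x : Ed d) : ℝ := ⟪a, x⟫_ℝ ^ 2 + ⟪b, x⟫_ℝ ^ 2 + 1

lemma one_le_rho (a b x : Ed d) : 1 ≤ rho a b x := by
  unfold rho; nlinarith [sq_nonneg ⟪a, x⟫_ℝ, sq_nonneg ⟪b, x⟫_ℝ]

lemma rho_pos (a b x : Ed d) : 0 < rho a b x := zero_lt_one.trans_le (one_le_rho a b x)

lemma contDiff_rho (a b : Ed d) : ContDiff ℝ 1 (rho a b) :=
  (((innerSL ℝ a).contDiff.pow 2).add ((innerSL ℝ b).contDiff.pow 2)).add contDiff_const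

/-- The squared gradient in the plane. -/
def W2 (u : Ed d → ℝ) (a b x : Ed d) : ℝ := Dd u a x ^ 2 + Dd u b x ^ 2

lemma W2_nonneg (u : Ed d → ℝ) (a b x : Ed d) : 0 ≤ W2 u a b x := by
  unfold W2; positivity

lemma continuous_W2 {u : Ed d → ℝ} (hu : ContDiff ℝ 2 u) (a b : Ed d) : Continuous (W2 u a b) :=
  ((continuous_Dd hu a).pow 2).add ((continuous_Dd hu b).pow 2)

/-- Invariance under the rotations of the plane. -/
def Rot (u : Ed d → ℝ) (a b : Ed d) : Prop :=
  ∀ x, ⟪a, x⟫_ℝ * Dd u b x = ⟪b, x⟫_ℝ * Dd u a x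

/-- Orthonormal pair. -/
def Pair (a b : Ed d) : Prop := ‖a‖ = 1 ∧ ‖b‖ = 1 ∧ ⟪a, b⟫_ℝ = 0

lemma pair_bessel {a b : Ed d} (hab : Pair a b) (z : Fin d → ℝ) :
    (∑ l, ⟪bb l, a⟫_ℝ * z l) ^ 2 + (∑ l, ⟪bb l, b⟫_ℝ * z l) ^ 2 ≤ ∑ l, z l ^ 2 := by
  set Z : Ed d := ∑ l, z l • bb l with hZ
  have hin : ∀ c : Ed d, ∑ l, ⟪bb l, c⟫_ℝ * z l = ⟪Z, c⟫_ℝ := fun c => by
    rw [hZ, sum_inner]
    exact Finset.sum_congr rfl fun l _ => by rw [real_inner_smul_left]; ring
  have hn : ∑ l, z l ^ 2 = ⟪Z, Z⟫_ℝ := by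
    have hc : ∀ l, ⟪bb l, Z⟫_ℝ = z l := fun l =>
      (EuclideanSpace.basisFun (Fin d) ℝ).orthonormal.inner_right_fintype z l
    rw [← hin Z]
    exact Finset.sum_congr rfl fun l _ => by rw [hc]; ring
  rw [hin, hin, hn]
  obtain ⟨ha, hb, hab0⟩ := hab
  have haa : ⟪a, a⟫_ℝ = 1 := by rw [real_inner_self_eq_norm_sq, ha]; norm_num
  have hbb : ⟪b, b⟫_ℝ = 1 := by rw [real_inner_self_eq_norm_sq, hb]; norm_num
  have h0 := real_inner_self_nonneg (x := Z - ⟪Z, a⟫_ℝ • a - ⟪Z, b⟫_ℝ • b)
  have hba : ⟪b, a⟫_ℝ = 0 := by rw [real_inner_comm]; exact hab0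
  simp only [inner_sub_left, inner_sub_right, real_inner_smul_left, real_inner_smul_right, haa,
    hbb, hab0, hba] at h0
  rw [real_inner_comm a Z, real_inner_comm b Z] at *
  nlinarith

/-- Kato's inequality in the plane. -/
lemma kato_pointwise {u : Ed d → ℝ} (hu : ContDiff ℝ 2 u) {a b : Ed d} (hab : Pair a b)
    (hrot : Rot u a b) (x : Ed d) :
    W2 u a b x ^ 2 / rho a b x + ∑ l, (Dd u a x * pd (Dd u a) l x + Dd u b x * pd (Dd u b) l x) ^ 2
      ≤ W2 u a b x * (G (Dd u a) (Dd u a) x + G (Dd u b) (Dd u b) x) := by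
  set wa := Dd u a x with hwa
  set wb := Dd u b x with hwb
  set z : Fin d → ℝ := fun l => wa * pd (Dd u b) l x - wb * pd (Dd u a) l x with hz
  have hDa := (contDiff_Dd hu a).differentiable one_ne_zero x
  have hDb := (contDiff_Dd hu b).differentiable one_ne_zero x
  have hfun : (fun y => ⟪a, y⟫_ℝ * Dd u b y) = fun y => ⟪b, y⟫_ℝ * Dd u a y := funext hrot
  have hdir : ∀ v : Ed d, ⟪a, v⟫_ℝ * wb + ⟪a, x⟫_ℝ * Dd (Dd u b) v x
      = ⟪b, v⟫_ℝ * wa + ⟪b, x⟫_ℝ * Dd (Dd u a) v x := by
    intro v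
    have h1 := ((innerSL ℝ a).hasFDerivAt (x := x)).mul hDb.hasFDerivAt
    have h2 := ((innerSL ℝ b).hasFDerivAt (x := x)).mul hDa.hasFDerivAt
    have e1 : (fun y => innerSL ℝ a y * Dd u b y) = fun y => innerSL ℝ b y * Dd u a y := hfun
    have h3 := congrArg (fun L : Ed d →L[ℝ] ℝ => L v)
      (h1.unique (h2.congr_of_eventuallyEq (Eventually.of_forall fun y => congrFun e1 y)))
    simp only [add_apply, smul_apply, innerSL_apply_apply, smul_eq_mul] at h3
    simp only [hwa, hwb, Dd] at h3 ⊢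
    linarith
  have hcomb : ∀ v : Ed d, ∑ l, ⟪bb l, v⟫_ℝ * z l
      = wa * Dd (Dd u b) v x - wb * Dd (Dd u a) v x := fun v => by
    rw [Dd_eq_sum (Dd u b), Dd_eq_sum (Dd u a), Finset.mul_sum, Finset.mul_sum,
      ← Finset.sum_sub_distrib]
    exact Finset.sum_congr rfl fun l _ => by simp only [hz]; ring
  obtain ⟨ha, hb, hab0⟩ := hab
  have haa : ⟪a, a⟫_ℝ = 1 := by rw [real_inner_self_eq_norm_sq, ha]; norm_num
  have hbb : ⟪b, b⟫_ℝ = 1 := by rw [real_inner_self_eq_norm_sq, hb]; norm_num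
  have hba : ⟪b, a⟫_ℝ = 0 := by rw [real_inner_comm]; exact hab0
  have da := hdir a
  have db := hdir b
  rw [haa, hba] at da
  rw [hab0, hbb] at db
  have hx := hrot x
  rw [← hwa, ← hwb] at hx
  set p := ⟪a, x⟫_ℝ
  set q := ⟪b, x⟫_ℝ
  set Za := wa * Dd (Dd u b) a x - wb * Dd (Dd u a) a x
  set Zb := wa * Dd (Dd u b) b x - wb * Dd (Dd u a) b x
  have e1 : p * Za = -(wa * wb) := by linear_combination wa * da - Dd (Dd u a) a x * hx
  have e2 : q * Za = -(wb * wb) := by linear_combination wb * da - Dd (Dd u b) a x * hx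
  have e3 : p * Zb = wa * wa := by linear_combination wa * db - Dd (Dd u a) b x * hx
  have e4 : q * Zb = wa * wb := by linear_combination wb * db - Dd (Dd u b) b x * hx
  have hexact : (p ^ 2 + q ^ 2) * (Za ^ 2 + Zb ^ 2) = W2 u a b x ^ 2 := by
    have : (p ^ 2 + q ^ 2) * (Za ^ 2 + Zb ^ 2)
        = (p * Za) ^ 2 + (q * Za) ^ 2 + ((p * Zb) ^ 2 + (q * Zb) ^ 2) := by ring
    rw [this, e1, e2, e3, e4, W2, ← hwa, ← hwb]; ring
  have hB := pair_bessel ⟨ha, hb, hab0⟩ z
  rw [hcomb, hcomb] at hB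
  have hq : W2 u a b x ^ 2 / rho a b x ≤ ∑ l, z l ^ 2 := by
    rw [div_le_iff₀ (rho_pos a b x)]
    calc W2 u a b x ^ 2 = (p ^ 2 + q ^ 2) * (Za ^ 2 + Zb ^ 2) := hexact.symm
      _ ≤ rho a b x * ∑ l, z l ^ 2 := mul_le_mul (le_add_of_nonneg_right zero_le_one) hB
          (by positivity) (rho_pos a b x).le
      _ = _ := mul_comm _ _
  refine (add_le_add_left hq _).trans (le_of_eq ?_)
  simp only [W2, G, ← hwa, ← hwb, ← Finset.sum_add_distrib, Finset.mul_sum, hz]
  exact Finset.sum_congr rfl fun l _ => by ring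

/-- The gradient in the plane as a test function. -/
lemma kato_form {u : Ed d → ℝ} (h : Sol u) (hst : Stable u) {a b : Ed d} (hab : Pair a b)
    (hrot : Rot u a b) {ξ : Ed d → ℝ} (hξ : ContDiff ℝ 1 ξ) (hξc : HasCompactSupport ξ) :
    ∫ x, ξ x ^ 2 * (W2 u a b x / rho a b x) ≤ ∫ x, W2 u a b x * G ξ ξ x := by
  have hρc := (contDiff_rho a b).continuous
  have hρ0 : ∀ x, rho a b x ≠ 0 := fun x => (rho_pos a b x).ne'
  have hWc := continuous_W2 h.smooth a b
  set c : Ed d → ℝ := fun x => 3 * u x ^ 2 - 1 with hcdef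
  have hcc : Continuous c := ((h.smooth.continuous.pow 2).const_mul 3).sub continuous_const
  have hGξ := continuous_G hξ one_ne_zero hξ one_ne_zero
  have hwa := contDiff_Dd h.smooth a
  have hwb := contDiff_Dd h.smooth b
  set s : ℕ → ℝ := fun n => 1 / ((n : ℝ) + 1) with hsdef
  have hspos : ∀ n, 0 < s n := fun n => by positivity
  have hs0 : Tendsto s atTop (𝓝 0) := tendsto_one_div_add_atTop_nhds_zero_nat
  have hpos : ∀ n x, 0 < W2 u a b x + s n ^ 2 := fun n x => by
    have := W2_nonneg u a b x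
    have := hspos n
    positivity
  set φa : Ed d → ℝ := fun x => ξ x * (ξ x * Dd u a x) with hφa
  set φb : Ed d → ℝ := fun x => ξ x * (ξ x * Dd u b x) with hφb
  have ha1 : ContDiff ℝ 1 φa := hξ.mul (hξ.mul hwa)
  have hb1 : ContDiff ℝ 1 φb := hξ.mul (hξ.mul hwb)
  have hia := Dd_weak h a ha1 hξc.mul_right
  have hib := Dd_weak h b hb1 hξc.mul_right
  have key : ∀ n, ∫ x, ξ x ^ 2 * (W2 u a b x ^ 2 / (rho a b x * (W2 u a b x + s n ^ 2)))
      ≤ (∫ x, W2 u a b x * G ξ ξ x) + s n ^ 2 * ∫ x, (G ξ ξ x + c x * ξ x ^ 2) := by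
    intro n
    set We : Ed d → ℝ := fun x => √(W2 u a b x + s n ^ 2) with hWedef
    have hWe : ContDiff ℝ 1 We :=
      (((hwa.pow 2).add (hwb.pow 2)).add contDiff_const).sqrt fun x => (hpos n x).ne'
    have hWsq : ∀ x, We x * We x = W2 u a b x + s n ^ 2 := fun x =>
      Real.mul_self_sqrt (hpos n x).le
    set φ : Ed d → ℝ := fun x => ξ x * We x with hφdef
    have hφ : ContDiff ℝ 1 φ := hξ.mul hWe
    have h0 := hst φ hφ hξc.mul_right
    set T : Ed d → ℝ := fun x => (G (Dd u a) φa x + c x * (Dd u a x * φa x))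
      + (G (Dd u b) φb x + c x * (Dd u b x * φb x)) with hTdef
    have jT : ∀ {f w : Ed d → ℝ}, ContDiff ℝ 1 w → ContDiff ℝ 1 f → HasCompactSupport f →
        Integrable fun x => G w f x + c x * (w x * f x) := fun {f w} hw hf hfc =>
      integrable_off ((continuous_G hw one_ne_zero hf one_ne_zero).add
        (hcc.mul (hw.continuous.mul hf.continuous))) hfc fun x hx => by
          simp [G, pd_zero_off hx, image_eq_zero_of_notMem_tsupport hx]
    have iT : Integrable T := (jT hwa ha1 hξc.mul_right).add (jT hwb hb1 hξc.mul_right)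
    have hT0 : ∫ x, T x = 0 := by
      rw [hTdef, integral_add (jT hwa ha1 hξc.mul_right) (jT hwb hb1 hξc.mul_right), hia, hib,
        add_zero]
    have iφ : Integrable fun x => G φ φ x + c x * φ x ^ 2 :=
      integrable_off ((continuous_G hφ one_ne_zero hφ one_ne_zero).add
        (hcc.mul (hφ.continuous.pow 2))) hξc fun x hx => by
          simp [G, hφdef, image_eq_zero_of_notMem_tsupport hx,
            pd_mul (hξ.differentiable one_ne_zero x) (hWe.differentiable one_ne_zero x),
            pd_zero_off hx]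
    have hoff : ∀ {f : Ed d → ℝ}, Continuous f → (∀ x, x ∉ tsupport ξ → f x = 0) →
        Integrable f := fun {f} hf h0' => integrable_off hf hξc h0'
    have iL : Integrable fun x =>
        ξ x ^ 2 * (W2 u a b x ^ 2 / (rho a b x * (W2 u a b x + s n ^ 2))) :=
      hoff ((hξ.continuous.pow 2).mul ((hWc.pow 2).div (hρc.mul (hWc.add continuous_const))
        fun x => mul_ne_zero (hρ0 x) (hpos n x).ne')) fun x hx => by
          rw [image_eq_zero_of_notMem_tsupport hx]; ring
    have iM : Integrable fun x => W2 u a b x * G ξ ξ x :=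
      hoff (hWc.mul hGξ) fun x hx => by rw [G_zero_off_left hx]; ring
    have iE : Integrable fun x => s n ^ 2 * (G ξ ξ x + c x * ξ x ^ 2) :=
      hoff ((hGξ.add (hcc.mul (hξ.continuous.pow 2))).const_mul _) fun x hx => by
        rw [G_zero_off_left hx, image_eq_zero_of_notMem_tsupport hx]; ring
    have hpw : ∀ x, (G φ φ x + c x * φ x ^ 2)
        + ξ x ^ 2 * (W2 u a b x ^ 2 / (rho a b x * (W2 u a b x + s n ^ 2)))
        ≤ (T x + W2 u a b x * G ξ ξ x) + s n ^ 2 * (G ξ ξ x + c x * ξ x ^ 2) := by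
      intro x
      have hdξ := hξ.differentiable one_ne_zero x
      have hdW := hWe.differentiable one_ne_zero x
      have hda := hwa.differentiable one_ne_zero x
      have hdb := hwb.differentiable one_ne_zero x
      set D : Fin d → ℝ := fun l => Dd u a x * pd (Dd u a) l x + Dd u b x * pd (Dd u b) l x with hD
      have hrel : ∀ l, We x * pd We l x = D l := by
        intro l
        have e : (fun y => We y * We y)
            = fun y => (Dd u a y * Dd u a y + Dd u b y * Dd u b y) + s n ^ 2 := funext fun y => by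
          rw [hWsq]; simp only [W2]; ring
        have h1 : pd (fun y => We y * We y) l x
            = pd (fun y => Dd u a y * Dd u a y) l x + pd (fun y => Dd u b y * Dd u b y) l x := by
          rw [e]
          simp [pd, fderiv_fun_add (hda.fun_mul hda) (hdb.fun_mul hdb)]
        rw [pd_mul hdW hdW, pd_mul hda hda, pd_mul hdb hdb] at h1
        simp only [hD]; linarith
      have hW0 := hpos n x
      have hK := kato_pointwise h.smooth hab hrot x
      set S := G (Dd u a) (Dd u a) x + G (Dd u b) (Dd u b) x with hS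
      have hS0 : 0 ≤ S := add_nonneg (G_self_nonneg _ x) (G_self_nonneg _ x)
      have hWpd : W2 u a b x ^ 2 / (rho a b x * (W2 u a b x + s n ^ 2)) + ∑ l, pd We l x ^ 2
          ≤ S := by
        have hs : ∑ l, pd We l x ^ 2 = (∑ l, D l ^ 2) / (W2 u a b x + s n ^ 2) := by
          rw [eq_div_iff hW0.ne', Finset.sum_mul]
          refine Finset.sum_congr rfl fun l _ => ?_
          rw [← hrel, ← hWsq]; ring
        rw [hs, ← div_div, ← add_div, div_le_iff₀ hW0]
        nlinarith [mul_nonneg hS0 (sq_nonneg (s n))]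
      have hTx : T x = ξ x ^ 2 * S + 2 * ξ x * (∑ l, pd ξ l x * D l)
          + c x * ξ x ^ 2 * W2 u a b x := by
        have hGw : ∀ w : Ed d → ℝ, DifferentiableAt ℝ w x →
            G w (fun y => ξ y * (ξ y * w y)) x
              = ξ x ^ 2 * G w w x + 2 * ξ x * ∑ l, pd ξ l x * (w x * pd w l x) := by
          intro w hw
          simp only [G, pd_mul hdξ (hdξ.fun_mul hw), pd_mul hdξ hw, Finset.mul_sum,
            ← Finset.sum_add_distrib]
          exact Finset.sum_congr rfl fun l _ => by ring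
        have e3 : (∑ l, pd ξ l x * D l) = (∑ l, pd ξ l x * (Dd u a x * pd (Dd u a) l x))
            + ∑ l, pd ξ l x * (Dd u b x * pd (Dd u b) l x) := by
          rw [← Finset.sum_add_distrib]
          exact Finset.sum_congr rfl fun l _ => by simp only [hD]; ring
        simp only [hTdef, hφa, hφb, hGw _ hda, hGw _ hdb, e3, hS, W2]
        ring
      have hGφ : G φ φ x = ξ x ^ 2 * (∑ l, pd We l x ^ 2) + 2 * ξ x * (∑ l, pd ξ l x * D l)
          + (W2 u a b x + s n ^ 2) * G ξ ξ x := by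
        simp only [G, hφdef, pd_mul hdξ hdW, ← hrel, ← hWsq, Finset.mul_sum,
          ← Finset.sum_add_distrib]
        exact Finset.sum_congr rfl fun l _ => by ring
      have hφx : φ x ^ 2 = ξ x ^ 2 * (W2 u a b x + s n ^ 2) := by
        rw [← hWsq]; simp only [hφdef]; ring
      rw [hTx, hGφ, hφx]
      nlinarith [mul_le_mul_of_nonneg_left hWpd (sq_nonneg (ξ x))]
    have hm := integral_mono (iφ.add iL) ((iT.add iM).add iE) hpw
    simp only [Pi.add_apply] at hm
    have iTM : Integrable fun x => T x + W2 u a b x * G ξ ξ x := iT.add iM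
    rw [integral_add iφ iL, integral_add iTM iE, integral_add iT iM, hT0, integral_const_mul] at hm
    linarith
  have hL : Tendsto
      (fun n => ∫ x, ξ x ^ 2 * (W2 u a b x ^ 2 / (rho a b x * (W2 u a b x + s n ^ 2)))) atTop
      (𝓝 (∫ x, ξ x ^ 2 * (W2 u a b x / rho a b x))) := by
    obtain ⟨B, hB⟩ := hξc.isCompact.exists_bound_of_continuousOn
      ((hξ.continuous.pow 2).mul hWc).continuousOn
    refine lim_integral hξc.isCompact (C := B)
      (fun n => (hξ.continuous.pow 2).mul ((hWc.pow 2).div (hρc.mul (hWc.add continuous_const))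
        fun x => mul_ne_zero (hρ0 x) (hpos n x).ne'))
      (fun n x hx => by rw [image_eq_zero_of_notMem_tsupport hx]; ring) (fun n x hx => ?_)
      fun x => ?_
    · have hW := W2_nonneg u a b x
      have hρ := one_le_rho a b x
      have hρp := rho_pos a b x
      have hp := hpos n x
      rw [abs_of_nonneg (by positivity)]
      refine le_trans ?_ ((le_abs_self _).trans (hB x hx))
      refine mul_le_mul_of_nonneg_left ?_ (sq_nonneg _)
      rw [div_le_iff₀ (mul_pos hρp hp)]
      calc W2 u a b x ^ 2 ≤ W2 u a b x * (1 * (W2 u a b x + s n ^ 2)) := by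
            nlinarith [mul_nonneg hW (sq_nonneg (s n))]
        _ ≤ _ := by gcongr
    · refine Tendsto.const_mul _ ?_
      rcases (W2_nonneg u a b x).eq_or_lt with h0 | h0
      · simp [← h0]
      · have := ((hs0.pow 2).const_add (W2 u a b x)).const_mul (rho a b x)
        have h2 : Tendsto (fun n => W2 u a b x ^ 2 / (rho a b x * (W2 u a b x + s n ^ 2))) atTop
            (𝓝 (W2 u a b x ^ 2 / (rho a b x * (W2 u a b x + 0 ^ 2)))) :=
          tendsto_const_nhds.div this (by simpa using mul_ne_zero (hρ0 x) h0.ne')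
        rwa [show W2 u a b x ^ 2 / (rho a b x * (W2 u a b x + 0 ^ 2)) = W2 u a b x / rho a b x by
          rw [zero_pow two_ne_zero, add_zero, sq, mul_comm (rho a b x),
            mul_div_mul_left _ _ h0.ne']] at h2
  have hR : Tendsto (fun n => (∫ x, W2 u a b x * G ξ ξ x)
      + s n ^ 2 * ∫ x, (G ξ ξ x + c x * ξ x ^ 2)) atTop (𝓝 (∫ x, W2 u a b x * G ξ ξ x)) := by
    simpa using ((hs0.pow 2).mul_const (∫ x, (G ξ ξ x + c x * ξ x ^ 2))).const_add
      (∫ x, W2 u a b x * G ξ ξ x)
  exact le_of_tendsto_of_tendsto' hL hR key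

end Vale.Agent.P134.Periodic
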