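/-
P134 (De Giorgi): weighted estimate for the gradient in a rotation plane.
-/
import Vale.Agent.P134.Sym.Kato

open MeasureTheory Filter Topology
open scoped InnerProductSpace

noncomputable section

namespace Vale.Agent.P134.Periodic

variable {d m r : ℕ}

/-- The weight `ρ^(-3/8)`. -/
def wgt (a b x : Ed d) : ℝ := rho a b x ^ (-(3 / 8 : ℝ))

lemma wgt_pos (a b x : Ed d) : 0 < wgt a b x := Real.rpow_pos_of_pos (rho_pos a b x) _

lemma contDiff_wgt (a b : Ed d) : ContDiff ℝ 1 (wgt a b) :=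
  (contDiff_rho a b).rpow_const_of_ne fun x => (rho_pos a b x).ne'

lemma G_wgt_le {a b : Ed d} (hab : Pair a b) (x : Ed d) :
    G (wgt a b) (wgt a b) x ≤ 9 / 16 * (wgt a b x ^ 2 / rho a b x) := by
  set p := ⟪a, x⟫_ℝ
  set q := ⟪b, x⟫_ℝ
  set k : ℝ := -(3 / 8) * rho a b x ^ (-(3 / 8 : ℝ) - 1) with hk
  have hρ := rho_pos a b x
  have hdρ : HasFDerivAt (rho a b) ((2 * p) • innerSL ℝ a + (2 * q) • innerSL ℝ b) x := by
    have h1 := ((innerSL ℝ a).hasFDerivAt (x := x)).pow 2
    have h2 := ((innerSL ℝ b).hasFDerivAt (x := x)).pow 2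
    refine ((h1.add h2).add_const 1).congr_fderiv ?_
    simp [p, q]
  have hpd : ∀ l, pd (wgt a b) l x = k * (2 * (p * ⟪bb l, a⟫_ℝ + q * ⟪bb l, b⟫_ℝ)) := by
    intro l
    have h := (hdρ.rpow_const (p := -(3 / 8 : ℝ)) (Or.inl hρ.ne')).fderiv
    rw [pd, show wgt a b = fun y => rho a b y ^ (-(3 / 8 : ℝ)) from rfl, h]
    simp [hk, real_inner_comm (bb l)]
    ring
  obtain ⟨ha, hb, hab0⟩ := hab
  set Z : Ed d := p • a + q • b with hZdef
  have hZ : ∑ l, ⟪bb l, Z⟫_ℝ ^ 2 = p ^ 2 + q ^ 2 := by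
    rw [show ∑ l, ⟪bb l, Z⟫_ℝ ^ 2 = ‖Z‖ ^ 2 from
      (EuclideanSpace.basisFun (Fin d) ℝ).sum_sq_inner_right Z, hZdef, norm_add_sq_real,
      norm_smul, norm_smul, ha, hb, real_inner_smul_left, real_inner_smul_right, hab0]
    simp [Real.norm_eq_abs, sq_abs]
  have hG : G (wgt a b) (wgt a b) x = 4 * k ^ 2 * (p ^ 2 + q ^ 2) := by
    rw [← hZ, Finset.mul_sum, G]
    refine Finset.sum_congr rfl fun l _ => ?_
    rw [hpd, hZdef, inner_add_right, real_inner_smul_right, real_inner_smul_right]; ring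
  have hk2 : k * rho a b x = -(3 / 8) * wgt a b x := by
    rw [hk, mul_assoc, ← Real.rpow_add_one hρ.ne']
    simp [wgt]
  rw [hG, ← mul_div_assoc, le_div_iff₀ hρ]
  calc 4 * k ^ 2 * (p ^ 2 + q ^ 2) * rho a b x
      ≤ 4 * k ^ 2 * rho a b x * rho a b x := by
        gcongr
        exact le_add_of_nonneg_right zero_le_one
    _ = 4 * (k * rho a b x) ^ 2 := by ring
    _ = _ := by rw [hk2]; ring

lemma wgt_sq_le (a b x : Ed d) {R : ℝ} (hR : 1 ≤ R) :
    wgt a b x ^ 2 ≤ 3 / 4 * √R * (rho a b x)⁻¹ + 1 / 4 * (√R * R)⁻¹ := by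
  set y := rho a b x ^ (-(1 / 4) : ℝ) with hy
  have hρ := rho_pos a b x
  have hs : 0 < √R := Real.sqrt_pos.2 (by linarith)
  have e1 : wgt a b x ^ 2 = y ^ 3 := by
    rw [wgt, hy, ← Real.rpow_mul_natCast hρ.le, ← Real.rpow_mul_natCast hρ.le]; norm_num
  have e2 : (rho a b x)⁻¹ = y ^ 4 := by
    rw [hy, ← Real.rpow_mul_natCast hρ.le, ← Real.rpow_neg_one]; norm_num
  have e3 : √R * R = √R ^ 3 := by
    rw [pow_succ' _ 2, Real.sq_sqrt (by linarith)]
  rw [e1, e2, e3]
  set t := √R * y with ht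
  have hp : 0 ≤ (t - 1) ^ 2 * (3 * t ^ 2 + 2 * t + 1) := by
    refine mul_nonneg (sq_nonneg _) ?_
    nlinarith [sq_nonneg (3 * t + 1)]
  refine le_of_mul_le_mul_left ?_ (pow_pos hs 3)
  have : √R ^ 3 * (√R ^ 3)⁻¹ = 1 := mul_inv_cancel₀ (by positivity)
  nlinarith

/-- Weighted estimate in a rotation plane: the gradient decays like the energy over `R^{7/2}`. -/
lemma hardy (L : Ed d ≃L[ℝ] (Ix m r → ℝ)) {a b : Ed d} (hab : Pair a b) :
    ∃ C, 0 ≤ C ∧ ∀ u : Ed d → ℝ, Sol u → Stable u → Rot u a b → ∀ R : ℝ, 1 ≤ R →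
      ∫ x, Pb L Finset.univ (fun _ => R) x ^ 2 * wgt a b x ^ 2 * (W2 u a b x / rho a b x)
        ≤ C * √R / R ^ 4 * ∫ x, (box L fun _ => 4 * R).indicator (G u u) x := by
  obtain ⟨M, hM0, hM⟩ := exists_deriv_bump_bound
  obtain ⟨Λ, hΛ0, hΛ⟩ := exists_Lambda L
  set A : ℝ := (d : ℝ) * ((Fintype.card (Ix m r) : ℝ) * (M * Λ)) ^ 2 with hA
  have hA0 : 0 ≤ A := by positivity
  refine ⟨32 * (A * (A + 1)), by positivity, fun u h hst hrot R hR => ?_⟩
  have hR0 : 0 < R := by linarith
  have hs : 0 < √R := Real.sqrt_pos.2 hR0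
  set W := W2 u a b with hW
  have hWc := continuous_W2 h.smooth a b
  have hρc := (contDiff_rho a b).continuous
  have hf := contDiff_wgt a b
  set η := Pb L Finset.univ fun _ => R with hη
  set η2 := Pb L Finset.univ fun _ => 2 * R with hη2
  have hη1 : ContDiff ℝ 1 η := contDiff_Pb L _ _
  have hη21 : ContDiff ℝ 1 η2 := contDiff_Pb L _ _
  have hzero : ∀ S : ℝ, 0 < S → ∀ x ∉ box L (fun _ => 2 * S),
      Pb L Finset.univ (fun _ => S) x = 0 := fun S hS x hx => by
    simp only [box, Set.mem_ofPred_eq, not_forall, not_le] at hx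
    obtain ⟨j, hj⟩ := hx
    exact Pb_zero L (fun _ _ => hS) (Finset.mem_univ j) hj.le
  have hgrad : ∀ S : ℝ, R ≤ S → ∀ x, G (Pb L Finset.univ fun _ => S) (Pb L Finset.univ fun _ => S) x
      ≤ (box L fun _ => 2 * S).indicator (fun _ => A / R ^ 2) x := by
    intro S hS x
    have hS0 : 0 < S := by linarith
    by_cases hx : x ∈ box L fun _ => 2 * S
    · rw [Set.indicator_of_mem hx]
      calc G (Pb L Finset.univ fun _ => S) (Pb L Finset.univ fun _ => S) x
          ≤ ∑ _i : Fin d, ((Fintype.card (Ix m r) : ℝ) * (M * Λ) / R) ^ 2 := by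
            refine Finset.sum_le_sum fun i _ => ?_
            rw [← sq, ← sq_abs]
            refine pow_le_pow_left₀ (abs_nonneg _)
              ((abs_pd_Pb L hM hΛ (fun _ _ => hS0) i x).trans ?_) 2
            rw [Finset.sum_const, nsmul_eq_mul, Finset.card_univ, ← mul_div_assoc]
            exact div_le_div_of_nonneg_left (by positivity) hR0 hS
        _ = A / R ^ 2 := by
            rw [Finset.sum_const, Finset.card_univ, Fintype.card_fin, nsmul_eq_mul, hA]
            ring
    · rw [Set.indicator_of_notMem hx, G_zero_off_left fun hc =>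
        hx (tsupport_subset_box L (hzero S hS0) hc)]
  set V := ∫ x, (box L fun _ => 4 * R).indicator (G u u) x with hV
  have hGu := continuous_G h.smooth (by norm_num) h.smooth (by norm_num)
  have iV : Integrable ((box L fun _ => 4 * R).indicator (G u u)) :=
    (hGu.continuousOn.integrableOn_compact (isCompact_box L _)).integrable_indicator
      (measurableSet_box L _)
  have hWG : ∀ x, W x ≤ 2 * G u u x := fun x => by
    have h1 := sq_Dd_le u a x
    have h2 := sq_Dd_le u b x
    rw [hab.1] at h1; rw [hab.2.1] at h2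
    simp only [hW, W2]; linarith
  have hηc : HasCompactSupport η := HasCompactSupport.intro (isCompact_box L _) (hzero R hR0)
  have hη2c : HasCompactSupport η2 :=
    HasCompactSupport.intro (isCompact_box L _) (hzero (2 * R) (by linarith))
  have hoff : ∀ {f : Ed d → ℝ}, Continuous f → ∀ {g : Ed d → ℝ}, HasCompactSupport g →
      (∀ x ∉ tsupport g, f x = 0) → Integrable f := fun {f} hf' {g} hg h0 => integrable_off hf' hg h0
  -- first step
  have s1 : ∫ x, η2 x ^ 2 * (W x / rho a b x) ≤ 2 * A / R ^ 2 * V := by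
    refine (kato_form h hst hab hrot hη21 hη2c).trans ?_
    rw [hV, ← integral_const_mul]
    refine integral_mono (hoff (hWc.mul (continuous_G hη21 one_ne_zero hη21 one_ne_zero)) hη2c
      fun x hx => by rw [G_zero_off_left hx, mul_zero]) (iV.const_mul _) fun x => ?_
    refine (mul_le_mul_of_nonneg_left (hgrad (2 * R) (by linarith) x) (W2_nonneg u a b x)).trans ?_
    simp only [show (2 : ℝ) * (2 * R) = 4 * R by ring]
    by_cases hx : x ∈ box L fun _ => 4 * R
    · rw [Set.indicator_of_mem hx, Set.indicator_of_mem hx]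
      exact (mul_le_mul_of_nonneg_right (hWG x) (by positivity)).trans (le_of_eq (by ring))
    · rw [Set.indicator_of_notMem hx, Set.indicator_of_notMem hx, mul_zero, mul_zero]
  -- second step
  set ξ : Ed d → ℝ := fun x => wgt a b x * η x with hξdef
  have hξ : ContDiff ℝ 1 ξ := hf.mul hη1
  have hξc : HasCompactSupport ξ := hηc.mul_left
  have hGξ : ∀ x, G ξ ξ x ≤ 3 / 4 * (η x ^ 2 * (wgt a b x ^ 2 / rho a b x))
      + 4 * (wgt a b x ^ 2 * G η η x) := by
    intro x
    have hdf := hf.differentiable one_ne_zero x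
    have hdη := hη1.differentiable one_ne_zero x
    calc G ξ ξ x ≤ 4 / 3 * (η x ^ 2 * G (wgt a b) (wgt a b) x)
          + 4 * (wgt a b x ^ 2 * G η η x) := by
          simp only [G, hξdef, pd_mul hdf hdη, Finset.mul_sum, ← Finset.sum_add_distrib]
          refine Finset.sum_le_sum fun l _ => ?_
          nlinarith [sq_nonneg (η x * pd (wgt a b) l x - 3 * (wgt a b x * pd η l x))]
      _ ≤ 4 / 3 * (η x ^ 2 * (9 / 16 * (wgt a b x ^ 2 / rho a b x)))
          + 4 * (wgt a b x ^ 2 * G η η x) := by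
          gcongr
          exact G_wgt_le hab x
      _ = _ := by ring
  have iP : Integrable fun x => η x ^ 2 * wgt a b x ^ 2 * (W x / rho a b x) :=
    hoff (((hη1.continuous.pow 2).mul (hf.continuous.pow 2)).mul
      (hWc.div hρc fun x => (rho_pos a b x).ne')) hηc fun x hx => by
        rw [image_eq_zero_of_notMem_tsupport hx]; ring
  have iQ : Integrable fun x => W x * (wgt a b x ^ 2 * G η η x) :=
    hoff (hWc.mul ((hf.continuous.pow 2).mul (continuous_G hη1 one_ne_zero hη1 one_ne_zero))) hηc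
      fun x hx => by rw [G_zero_off_left hx]; ring
  have hk := kato_form h hst hab hrot hξ hξc
  have e : (fun x => ξ x ^ 2 * (W2 u a b x / rho a b x))
      = fun x => η x ^ 2 * wgt a b x ^ 2 * (W x / rho a b x) := funext fun x => by
    simp only [hξdef, hW]; ring
  rw [e] at hk
  have hk2 : ∫ x, W x * G ξ ξ x ≤ 3 / 4 * (∫ x, η x ^ 2 * wgt a b x ^ 2 * (W x / rho a b x))
      + 4 * ∫ x, W x * (wgt a b x ^ 2 * G η η x) := by
    rw [← integral_const_mul, ← integral_const_mul, ← integral_add (iP.const_mul _) (iQ.const_mul _)]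
    refine integral_mono (hoff (hWc.mul (continuous_G hξ one_ne_zero hξ one_ne_zero)) hξc
      fun x hx => by rw [G_zero_off_left hx, mul_zero]) ((iP.const_mul _).add (iQ.const_mul _))
      fun x => ?_
    exact (mul_le_mul_of_nonneg_left (hGξ x) (W2_nonneg u a b x)).trans (le_of_eq (by ring))
  have hQ : ∫ x, W x * (wgt a b x ^ 2 * G η η x)
      ≤ A / R ^ 2 * (√R * (2 * A / R ^ 2 * V) + (√R * R)⁻¹ * (2 * V)) := by
    refine le_trans ?_ (mul_le_mul_of_nonneg_left (add_le_add (mul_le_mul_of_nonneg_left s1 hs.le)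
      le_rfl) (by positivity))
    rw [hV, ← integral_const_mul, ← integral_const_mul, ← integral_const_mul]
    have iS : Integrable fun x => √R * (η2 x ^ 2 * (W x / rho a b x)) :=
      (hoff ((hη21.continuous.pow 2).mul (hWc.div hρc fun x => (rho_pos a b x).ne')) hη2c
        fun x hx => by simp [image_eq_zero_of_notMem_tsupport hx]).const_mul _
    rw [← integral_add iS ((iV.const_mul _).const_mul _), ← integral_const_mul]
    refine integral_mono iQ ((iS.add ((iV.const_mul _).const_mul _)).const_mul _) fun x => ?_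
    have hw0 := W2_nonneg u a b x
    have hρp := rho_pos a b x
    refine (mul_le_mul_of_nonneg_left (mul_le_mul_of_nonneg_left (hgrad R le_rfl x)
      (sq_nonneg _)) hw0).trans ?_
    by_cases hx : x ∈ box L fun _ => 2 * R
    · have hx4 : x ∈ box L fun _ => 4 * R := fun j => (hx j).trans (by linarith)
      have h1 : η2 x = 1 := Pb_one L (fun _ _ => by linarith) fun j _ => hx j
      rw [Set.indicator_of_mem hx]
      simp only [Set.indicator_of_mem hx4, h1, one_pow, one_mul]
      have h2 := mul_le_mul_of_nonneg_left (wgt_sq_le a b x hR) hw0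
      rw [show W x * (wgt a b x ^ 2 * (A / R ^ 2)) = A / R ^ 2 * (W x * wgt a b x ^ 2) by ring]
      refine mul_le_mul_of_nonneg_left (h2.trans ?_) (by positivity)
      have h3 : (√R * R)⁻¹ * (W x) ≤ (√R * R)⁻¹ * (2 * G u u x) :=
        mul_le_mul_of_nonneg_left (hWG x) (by positivity)
      have h4 : 0 ≤ √R * (W x / rho a b x) := by positivity
      have h5 : 0 ≤ (√R * R)⁻¹ * W x := by positivity
      rw [show W2 u a b x * (3 / 4 * √R * (rho a b x)⁻¹ + 1 / 4 * (√R * R)⁻¹)
        = 3 / 4 * (√R * (W x / rho a b x)) + 1 / 4 * ((√R * R)⁻¹ * W x) by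
        simp only [hW]; ring]
      linarith
    · rw [Set.indicator_of_notMem hx, mul_zero, mul_zero]
      have : 0 ≤ (box L fun _ => 4 * R).indicator (G u u) x :=
        Set.indicator_nonneg (fun y _ => G_self_nonneg u y) x
      positivity
  have hsR : √R * √R = R := Real.mul_self_sqrt hR0.le
  have hV0 : 0 ≤ V := integral_nonneg fun x => Set.indicator_nonneg (fun y _ => G_self_nonneg u y) x
  calc ∫ x, η x ^ 2 * wgt a b x ^ 2 * (W x / rho a b x)
      ≤ 16 * ∫ x, W x * (wgt a b x ^ 2 * G η η x) := by linarith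
    _ ≤ 16 * (A / R ^ 2 * (√R * (2 * A / R ^ 2 * V) + (√R * R)⁻¹ * (2 * V))) := by linarith
    _ = 32 * (A * (√R * A + √R)) / R ^ 4 * V := by
        have : (√R * R)⁻¹ = √R / R ^ 2 := by
          rw [eq_div_iff (by positivity), inv_mul_eq_div, div_eq_iff (by positivity)]
          linear_combination (-R) * hsR
        rw [this]
        field_simp
        ring
    _ = _ := by ring

end Vale.Agent.P134.Periodic
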