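/-
P134 (De Giorgi): monotone solutions in four variables invariant under the rotations of a plane.
-/
import Vale.Agent.P134.Sym.Hardy
import Vale.Agent.P134.Stat.Main

open MeasureTheory Filter Topology
open scoped InnerProductSpace

noncomputable section

namespace Vale.Agent.P134.Periodic

variable {d m r : ℕ}

/-- A derivative vanishing everywhere gives invariance along its direction. -/
lemma eq_of_Dd_zero {v : Ed d → ℝ} (hv : Differentiable ℝ v) {a : Ed d}
    (h : ∀ x, Dd v a x = 0) (t : ℝ) (x : Ed d) : v (x + t • a) = v x := by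
  have hd : ∀ s : ℝ, HasDerivAt (fun s : ℝ => v (x + s • a)) 0 s := fun s => by
    simpa [h] using hasDerivAt_line hv x a s
  simpa using is_const_of_deriv_eq_zero (fun s => (hd s).differentiableAt) (fun s => (hd s).deriv) t 0

/-- The weighted gradient in the plane. -/
def wW (v : Ed d → ℝ) (a b x : Ed d) : ℝ := wgt a b x ^ 2 * (W2 v a b x / rho a b x)

lemma wW_nonneg (v : Ed d → ℝ) (a b x : Ed d) : 0 ≤ wW v a b x :=
  mul_nonneg (sq_nonneg _) (div_nonneg (W2_nonneg v a b x) (rho_pos a b x).le)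

lemma continuous_wW {v : Ed d → ℝ} (hv : ContDiff ℝ 2 v) (a b : Ed d) : Continuous (wW v a b) :=
  ((contDiff_wgt a b).continuous.pow 2).mul
    ((continuous_W2 hv a b).div (contDiff_rho a b).continuous fun x => (rho_pos a b x).ne')

lemma box_Pb_zero (L : Ed d ≃L[ℝ] (Ix m r → ℝ)) {S : ℝ} (hS : 0 < S) {x : Ed d}
    (hx : x ∉ box L fun _ => 2 * S) : Pb L Finset.univ (fun _ => S) x = 0 := by
  simp only [box, Set.mem_ofPred_eq, not_forall, not_le] at hx
  obtain ⟨j, hj⟩ := hx
  exact Pb_zero L (fun _ _ => hS) (Finset.mem_univ j) hj.le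

lemma integrable_Pb_sq_mul (L : Ed d ≃L[ℝ] (Ix m r → ℝ)) {S : ℝ} (hS : 0 < S) {f : Ed d → ℝ}
    (hf : Continuous f) : Integrable fun x => Pb L Finset.univ (fun _ => S) x ^ 2 * f x :=
  integrable_off (((contDiff_Pb L _ _).continuous.pow 2).mul hf) (isCompact_box L fun _ => 2 * S)
    fun x hx => by
      show _ * f x = 0
      rw [box_Pb_zero L hS hx]; ring

/-- If all windowed integrals vanish then the plane gradient vanishes. -/
lemma Dd_zero_of_windows (L : Ed d ≃L[ℝ] (Ix m r → ℝ)) {v : Ed d → ℝ} (hv : ContDiff ℝ 2 v)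
    (a b : Ed d)
    (h : ∀ S : ℝ, 1 ≤ S → ∫ x, Pb L Finset.univ (fun _ => S) x ^ 2 * wW v a b x = 0) (x : Ed d) :
    Dd v a x = 0 ∧ Dd v b x = 0 := by
  set S : ℝ := ‖L x‖ + 1 with hS
  have hS1 : 1 ≤ S := by linarith [norm_nonneg (L x)]
  have h1 : Pb L Finset.univ (fun _ => S) x = 1 := Pb_one L (fun _ _ => by linarith) fun j _ =>
    le_trans (by simpa [Real.norm_eq_abs] using norm_le_pi_norm (L x) j) (by linarith)
  have hzero : wW v a b x = 0 := by
    by_contra hne
    refine ((((contDiff_Pb L _ _).continuous.pow 2).mul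
      (continuous_wW hv a b)).integral_pos_of_hasCompactSupport_nonneg_nonzero (x := x) ?_
      (fun y => mul_nonneg (sq_nonneg _) (wW_nonneg v a b y)) ?_).ne' (h S hS1)
    · exact HasCompactSupport.intro (isCompact_box L fun _ => 2 * S) fun y hy => by
        show Pb L Finset.univ (fun _ => S) y ^ 2 * wW v a b y = 0
        rw [box_Pb_zero L (by linarith) hy]; ring
    · show Pb L Finset.univ (fun _ => S) x ^ 2 * wW v a b x ≠ 0
      rw [h1, one_pow, one_mul]; exact hne
  have hW : W2 v a b x = 0 := by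
    rcases mul_eq_zero.1 hzero with h0 | h0
    · exact absurd h0 (pow_ne_zero 2 (wgt_pos a b x).ne')
    · exact (div_eq_zero_iff.1 h0).resolve_right (rho_pos a b x).ne'
  have := (add_eq_zero_iff_of_nonneg (sq_nonneg _) (sq_nonneg _)).1 hW
  exact ⟨sq_eq_zero_iff.1 this.1, sq_eq_zero_iff.1 this.2⟩

lemma inner_add_smul_of_orth {a e : Ed d} (h : ⟪a, e⟫_ℝ = 0) (x : Ed d) (t : ℝ) :
    ⟪a, x + t • e⟫_ℝ = ⟪a, x⟫_ℝ := by
  rw [inner_add_right, real_inner_smul_right, h, mul_zero, add_zero]

/-- Rotation invariance passes to the profile. -/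
lemma rot_prof {u : Ed d → ℝ} (h : Sol u) {e : Ed d} (hmono : ∀ x, 0 < Dd u e x) {a b : Ed d}
    (hea : ⟪a, e⟫_ℝ = 0) (heb : ⟪b, e⟫_ℝ = 0) (hrot : Rot u a b) : Rot (prof u e) a b := by
  intro x
  have hl := fun c => tendsto_Dd (fun k : ℕ => h.translate ((k : ℝ) • e))
    (fun y => tendsto_prof h hmono y) c x
  refine tendsto_nhds_unique ((hl b).const_mul _) (((hl a).const_mul _).congr fun k => ?_)
  show ⟪b, x⟫_ℝ * Dd (fun y => u (y + (k : ℝ) • e)) a x
    = ⟪a, x⟫_ℝ * Dd (fun y => u (y + (k : ℝ) • e)) b x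
  rw [Dd_translate, Dd_translate]
  have h1 := hrot (x + (k : ℝ) • e)
  rw [inner_add_smul_of_orth hea, inner_add_smul_of_orth heb] at h1
  exact h1.symm

/-- With four variables the profile does not depend on the plane. -/
lemma prof_flat {L : Ed d ≃L[ℝ] (Ix 1 3 → ℝ)} {u : Ed d → ℝ} (h : Sol u) {e : Ed d}
    (hmono : ∀ x, 0 < Dd u e x) (hL : Adapted L fun _ => e) {a b : Ed d} (hab : Pair a b)
    (hea : ⟪a, e⟫_ℝ = 0) (heb : ⟪b, e⟫_ℝ = 0) (hrot : Rot u a b) (x : Ed d) :
    Dd (prof u e) a x = 0 := by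
  classical
  have hv := sol_prof h hmono
  set v := prof u e with hvdef
  obtain ⟨C, hC0, hC⟩ := hardy L hab
  obtain ⟨Ce, hCe0, hCe⟩ := energy_bound L hv.smooth hv.bdd hv.eqn
  have hbig : ∀ R : ℝ, 1 ≤ R →
      ∫ y, Pb L Finset.univ (fun _ => R) y ^ 2 * wW v a b y ≤ C * Ce * 256 * √R := by
    intro R hR
    have h1 := hC v hv (stable_prof h hmono) (rot_prof h hmono hea heb hrot) R hR
    have h2 := hCe (fun _ => 4 * R) fun _ => by linarith
    rw [Finset.prod_const, show (Finset.univ : Finset (Ix 1 3)).card = 4 from rfl] at h2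
    refine le_trans (le_of_eq ?_) (h1.trans ?_)
    · simp only [wW, mul_assoc]
    · refine (mul_le_mul_of_nonneg_left h2 (by positivity)).trans (le_of_eq ?_)
      have : R ≠ 0 := by linarith
      field_simp
      ring
  have hper : ∀ (k : Fin 1 → ℤ) y, wW v a b (y + sh (fun _ => e) k) = wW v a b y := by
    intro k y
    have hk : sh (fun _ : Fin 1 => e) k = ((k 0 : ℤ) : ℝ) • e := by simp [sh]
    rw [hk]
    have hf : (fun z => v (z + ((k 0 : ℤ) : ℝ) • e)) = v := funext (prof_shift_int h hmono _)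
    have hd : ∀ c, Dd v c (y + ((k 0 : ℤ) : ℝ) • e) = Dd v c y := fun c => by
      rw [← Dd_translate, hf]
    simp only [wW, W2, wgt, rho, hd, inner_add_smul_of_orth hea, inner_add_smul_of_orth heb]
  refine (Dd_zero_of_windows L hv.smooth a b (fun S hS => ?_) x).1
  have hS0 : 0 < S := by linarith
  set P : Ed d → ℝ := fun y => Pb L Finset.univ (fun _ => S) y ^ 2 with hP
  set I0 := ∫ y, P y * wW v a b y with hI0
  have hI00 : 0 ≤ I0 := integral_nonneg fun y => mul_nonneg (sq_nonneg _) (wW_nonneg v a b y)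
  obtain ⟨Mo, hMo⟩ := exists_overlap hL (isCompact_box L fun _ => 2 * S)
  have hi : ∀ k : Fin 1 → ℤ, Integrable fun y => P (y - sh (fun _ => e) k) * wW v a b y := by
    intro k
    have := (integrable_Pb_sq_mul L hS0 (continuous_wW hv.smooth a b)).comp_sub_right
      (sh (fun _ : Fin 1 => e) k)
    refine this.congr (Eventually.of_forall fun y => ?_)
    show _ * wW v a b (y - sh (fun _ => e) k) = _
    rw [← hper k (y - sh (fun _ => e) k), sub_add_cancel]
  have key : ∀ N : ℕ, (2 * (N : ℝ) + 1) * I0 ≤ Mo * (C * Ce * 256 * √((N : ℝ) + 2 * S)) := by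
    intro N
    set R : ℝ := N + 2 * S with hR
    have hR1 : 1 ≤ R := by have := Nat.cast_nonneg (α := ℝ) N; linarith
    refine le_trans (b := ∫ y, ∑ k ∈ lat 1 N, P (y - sh (fun _ => e) k) * wW v a b y) (le_of_eq ?_)
      (le_trans ?_ (mul_le_mul_of_nonneg_left (hbig R hR1) (Nat.cast_nonneg Mo)))
    · rw [integral_finsetSum _ fun k _ => hi k]
      have hsh : ∀ k ∈ lat 1 N, ∫ y, P (y - sh (fun _ => e) k) * wW v a b y = I0 := by
        intro k _
        rw [← integral_add_right_eq_self _ (sh (fun _ => e) k)]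
        simp only [add_sub_cancel_right, hper, hI0]
      rw [Finset.sum_congr rfl hsh, Finset.sum_const, nsmul_eq_mul, card_lat, pow_one]
    · rw [← integral_const_mul]
      refine integral_mono (integrable_finsetSum _ fun k _ => hi k)
        ((integrable_Pb_sq_mul L (by linarith) (continuous_wW hv.smooth a b)).const_mul _) fun y => ?_
      rw [← mul_assoc, ← Finset.sum_mul]
      refine mul_le_mul_of_nonneg_right ?_ (wW_nonneg v a b y)
      set s := (lat 1 N).filter fun k => y - sh (fun _ => e) k ∈ box L fun _ => 2 * S with hsdef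
      have hP1 : ∀ z, P z ≤ 1 := fun z => by
        simp only [hP]
        exact pow_le_one₀ (Pb_nonneg L _ _ z) (Pb_le_one L _ _ z)
      have hsum : ∑ k ∈ lat 1 N, P (y - sh (fun _ => e) k) ≤ s.card := by
        rw [← Finset.sum_subset (Finset.filter_subset _ _ : s ⊆ lat 1 N) fun k hk hk' => by
          simp only [hP]
          rw [box_Pb_zero L hS0 fun hm => hk' (Finset.mem_filter.2 ⟨hk, hm⟩)]
          ring]
        exact (Finset.sum_le_card_nsmul _ _ 1 fun k _ => hP1 _).trans
          (le_of_eq (by rw [nsmul_eq_mul, mul_one]))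
      rcases s.eq_empty_or_nonempty with h0 | ⟨k, hk⟩
      · rw [h0, Finset.card_empty, Nat.cast_zero] at hsum
        exact hsum.trans (mul_nonneg (Nat.cast_nonneg _) (sq_nonneg _))
      obtain ⟨hkN, hkb⟩ := Finset.mem_filter.1 hk
      have hy : Pb L Finset.univ (fun _ => R) y = 1 := by
        refine Pb_one L (fun _ _ => by linarith) fun j _ => ?_
        have h1 : |L (y - sh (fun _ => e) k) j| ≤ 2 * S := hkb j
        rw [map_sub, Pi.sub_apply, coord_sh hL] at h1
        have h2 : |Sum.elim (fun i => (k i : ℝ)) (fun _ : Fin 3 => (0 : ℝ)) j| ≤ N := by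
          rcases j with i | i
          · simp only [Sum.elim_inl]; exact_mod_cast mem_lat.1 hkN i
          · simp
        calc |L y j| = |(L y j - Sum.elim (fun i => (k i : ℝ)) (fun _ => 0) j)
              + Sum.elim (fun i => (k i : ℝ)) (fun _ => 0) j| := by rw [sub_add_cancel]
          _ ≤ 2 * S + N := (abs_add_le _ _).trans (add_le_add h1 h2)
          _ = R := by rw [hR]; ring
      rw [hy, one_pow, mul_one]
      exact hsum.trans (by exact_mod_cast hMo s y fun k hk => (Finset.mem_filter.1 hk).2)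
  show I0 = 0
  by_contra hne
  have hpos : 0 < I0 := lt_of_le_of_ne hI00 (Ne.symm hne)
  set B : ℝ := Mo * (C * Ce * 256) with hB
  obtain ⟨N, hN⟩ := exists_nat_gt (B ^ 2 / I0 ^ 2 + 2 * S)
  have h1 := pow_le_pow_left₀ (by positivity) (key N) 2
  rw [← mul_assoc (Mo : ℝ), ← hB, mul_pow B, Real.sq_sqrt (by positivity)] at h1
  have h2 : B ^ 2 / I0 ^ 2 < N := by linarith
  rw [div_lt_iff₀ (pow_pos hpos 2)] at h2
  have h3 : 2 * S ≤ (N : ℝ) := by
    have : 0 ≤ B ^ 2 / I0 ^ 2 := by positivity
    linarith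
  nlinarith [mul_le_mul_of_nonneg_left h3 (sq_nonneg B), pow_pos hpos 2]

/-- Rotation invariant monotone solutions in four variables are one-dimensional. -/
theorem axial_four (hd : d = 4) {u : Ed d → ℝ} (h : Sol u) {e : Ed d}
    (hmono : ∀ x, 0 < Dd u e x) {a b : Ed d} (hab : Pair a b) (hea : ⟪a, e⟫_ℝ = 0)
    (heb : ⟪b, e⟫_ℝ = 0) (hrot : Rot u a b) :
    ∃ ω : Ed d, ‖ω‖ = 1 ∧ ∃ p : ℝ → ℝ, ∀ x, u x = p ⟪ω, x⟫_ℝ := by
  classical
  have he0 : e ≠ 0 := fun h0 => by
    have := hmono 0
    simp [Dd, h0] at this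
  have haa : ⟪a, a⟫_ℝ = 1 := by rw [real_inner_self_eq_norm_sq, hab.1]; norm_num
  have ha0 : a ≠ 0 := fun h0 => by simp [h0] at haa
  have hliE : LinearIndependent ℝ fun _ : Fin 1 => e := linearIndependent_unique_iff.2 he0
  have hliA : LinearIndependent ℝ fun _ : Fin 1 => a := linearIndependent_unique_iff.2 ha0
  obtain ⟨L, hL⟩ := exists_adapted (r := 3) hliE (by omega)
  have hvz := prof_flat h hmono hL hab hea heb hrot
  have hv := sol_prof h hmono
  have hva := fun t x => eq_of_Dd_zero (hv.smooth.differentiable (by norm_num)) hvz t x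
  have hspan : e ∉ Submodule.span ℝ (Set.range fun _ : Fin 1 => a) := by
    intro hmem
    rw [Set.range_const, Submodule.mem_span_singleton] at hmem
    obtain ⟨c, hc⟩ := hmem
    rw [← hc, real_inner_smul_right, haa, mul_one] at hea
    exact he0 (by rw [← hc, hea, zero_smul])
  -- the profile has derivatives of constant sign
  have hsign : ∀ c, (∀ x, Dd (prof u e) c x = 0) ∨ (∀ x, 0 < Dd (prof u e) c x) ∨
      ∀ x, Dd (prof u e) c x < 0 := by
    obtain ⟨k, -, w, -, -, hs, hlim⟩ := select_prof hliA (by omega) h hmono hspan one_pos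
      (s := Set.univ) (Frequently.of_forall fun N => by
        rw [one_mul, cnt_eq]; simp [card_lat])
    have hw : w = prof u e := funext fun x => by
      refine tendsto_nhds_unique (hlim x) (tendsto_const_nhds.congr fun j => ?_)
      rw [show sh (fun _ : Fin 1 => a) (k j) = ((k j 0 : ℤ) : ℝ) • a by simp [sh], hva]
    rwa [hw] at hs
  obtain ⟨M1, hM10, hM1⟩ := exists_grad_bound d
  obtain ⟨M2, hM20, hM2⟩ := energy_le_of_sign (d := d) (by omega)
  obtain ⟨A, hA0, hA⟩ := exists_var1_chi L
  obtain ⟨C, hC0, hC⟩ := hardy L hab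
  set E : ℝ := 2 * ((M2 + 2 * M1) * (A * 4 ^ 3)) with hE
  have hen : ∀ R : ℝ, 1 ≤ R →
      ∫ x, (box L fun _ => 4 * R).indicator (G u u) x ≤ E * R ^ 3 := by
    intro R hR
    set χ := chi L (4 * R) with hχdef
    have hχ : ContDiff ℝ 1 χ := contDiff_Pb L _ _
    have hχc : HasCompactSupport χ := hasCompactSupport_chi (by linarith)
    have hχ0 : ∀ x, 0 ≤ χ x := Pb_nonneg L _ _
    have h1 : ∫ x, χ x * energy u x ≤ (M2 + 2 * M1) * ∫ x, var1 χ x := by
      have := ge_of_tendsto' ((tendsto_energy (fun k : ℕ => h.translate ((k : ℝ) • e))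
        (fun y => tendsto_prof h hmono y) hχ.continuous hχc).add_const
        (2 * M1 * ∫ x, var1 χ x)) fun k => energy_le_slide h hmono hM10 hM1 hχ hχc k
      linarith [hM2 _ hv (stable_prof h hmono) hsign χ hχ hχc hχ0]
    have h2 : ∫ x, (box L fun _ => 4 * R).indicator (G u u) x ≤ 2 * ∫ x, χ x * energy u x := by
      rw [← integral_const_mul]
      refine integral_mono (((continuous_G h.smooth (by norm_num) h.smooth
          (by norm_num)).continuousOn.integrableOn_compact
          (isCompact_box L _)).integrable_indicator (measurableSet_box L _))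
        ((integrable_off (hχ.continuous.mul (continuous_energy h.smooth)) hχc fun x hx => by
          show χ x * _ = 0
          rw [image_eq_zero_of_notMem_tsupport hx, zero_mul]).const_mul 2) fun x => ?_
      by_cases hx : x ∈ box L fun _ => 4 * R
      · rw [Set.indicator_of_mem hx, hχdef, chi, Pb_one L (fun _ _ => by linarith) fun j _ => hx j,
          one_mul, energy]
        nlinarith [sq_nonneg (1 - u x ^ 2)]
      · rw [Set.indicator_of_notMem hx]
        exact mul_nonneg zero_le_two (mul_nonneg (hχ0 x) (energy_nonneg u x))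
    calc _ ≤ 2 * ((M2 + 2 * M1) * (A * (4 * R) ^ (1 + 2))) :=
          h2.trans (mul_le_mul_of_nonneg_left (h1.trans (mul_le_mul_of_nonneg_left
            (hA (4 * R) (by linarith)) (by positivity))) zero_le_two)
      _ = E * R ^ 3 := by rw [hE]; ring
  have hua : ∀ x, Dd u a x = 0 := fun x => by
    refine (Dd_zero_of_windows L h.smooth a b (fun S hS => ?_) x).1
    have hS0 : 0 < S := by linarith
    refine le_antisymm ?_ (integral_nonneg fun y => mul_nonneg (sq_nonneg _) (wW_nonneg u a b y))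
    have hlim : Tendsto (fun R : ℝ => C * E / √R) atTop (𝓝 0) :=
      tendsto_const_nhds.div_atTop Real.tendsto_sqrt_atTop
    refine ge_of_tendsto hlim ?_
    filter_upwards [eventually_ge_atTop (2 * S)] with R hR
    have hR1 : 1 ≤ R := by linarith
    have h1 := (hC u h (stable_of_mono h hmono) hrot R hR1).trans
      (mul_le_mul_of_nonneg_left (hen R hR1) (by positivity))
    refine le_trans ?_ (h1.trans (le_of_eq ?_))
    · refine integral_mono (integrable_Pb_sq_mul L hS0 (continuous_wW h.smooth a b)) ?_ fun y => ?_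
      · simpa only [wW, mul_assoc] using
          integrable_Pb_sq_mul L (by linarith : 0 < R) (continuous_wW h.smooth a b)
      · simp only [wW, mul_assoc]
        refine mul_le_mul_of_nonneg_right ?_ (wW_nonneg u a b y)
        by_cases hy : y ∈ box L fun _ => 2 * S
        · rw [Pb_one L (w := fun _ => R) (fun _ _ => by linarith) fun j _ => (hy j).trans hR,
            one_pow]
          exact pow_le_one₀ (Pb_nonneg L _ _ y) (Pb_le_one L _ _ y)
        · rw [box_Pb_zero L hS0 hy, zero_pow two_ne_zero]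
          positivity
    · have hsR : √R * √R = R := Real.mul_self_sqrt (by linarith)
      rw [div_mul_eq_mul_div, div_eq_div_iff (by positivity) (by positivity)]
      linear_combination (C * E * R ^ 3) * hsR
  refine lattice_periodic (τ := fun _ : Fin 1 => a) (by omega) hliA h hmono fun i x => ?_
  simpa using eq_of_Dd_zero (h.smooth.differentiable (by norm_num)) hua 1 x

end Vale.Agent.P134.Periodic
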