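/-
P134 (De Giorgi): linear isometries, recurrence and fixed directions.
-/
import Vale.Agent.P134.Sym.Axial

open MeasureTheory Filter Topology
open scoped InnerProductSpace

noncomputable section

namespace Vale.Agent.P134.Periodic

variable {d : ℕ} {T : Ed d →L[ℝ] Ed d}

lemma clm_pow_add (T : Ed d →L[ℝ] Ed d) (a b : ℕ) (x : Ed d) :
    (T ^ (a + b)) x = (T ^ a) ((T ^ b) x) := by
  rw [pow_add]; rfl

lemma norm_pow_map (hT : ∀ x, ‖T x‖ = ‖x‖) (k : ℕ) (x : Ed d) : ‖(T ^ k) x‖ = ‖x‖ := by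
  induction k with
  | zero => simp
  | succ k ih => rw [add_comm, clm_pow_add, pow_one, hT, ih]

lemma pow_surjective (hT : ∀ x, ‖T x‖ = ‖x‖) (k : ℕ) : Function.Surjective (T ^ k) := by
  refine LinearMap.surjective_of_injective (f := (↑(T ^ k) : Ed d →ₗ[ℝ] Ed d)) ?_
  intro x y hxy
  have h : (T ^ k) (x - y) = 0 := by rw [map_sub]; exact sub_eq_zero.2 hxy
  have := norm_pow_map hT k (x - y)
  rw [h, norm_zero] at this
  exact sub_eq_zero.1 (norm_eq_zero.1 this.symm)

lemma inner_map (hT : ∀ x, ‖T x‖ = ‖x‖) (x y : Ed d) : ⟪T x, T y⟫_ℝ = ⟪x, y⟫_ℝ :=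
  (⟨(↑T : Ed d →ₗ[ℝ] Ed d), hT⟩ : Ed d →ₗᵢ[ℝ] Ed d).inner_map_map x y

lemma inner_fix_diff (hT : ∀ x, ‖T x‖ = ‖x‖) {w : Ed d} (hw : T w = w) (z : Ed d) :
    ⟪w, T z - z⟫_ℝ = 0 := by
  have h := inner_map hT w z
  rw [hw] at h
  rw [inner_sub_right, h, sub_self]

/-- A vector is the sum of a fixed vector and a displacement. -/
lemma split (hT : ∀ x, ‖T x‖ = ‖x‖) (v : Ed d) :
    ∃ f z, T f = f ∧ v = f + (T z - z) := by
  set K : Ed d →ₗ[ℝ] Ed d := (↑T : Ed d →ₗ[ℝ] Ed d) - LinearMap.id with hK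
  have hKx : ∀ x, K x = T x - x := fun x => rfl
  have hker : LinearMap.ker (K ∘ₗ K) = LinearMap.ker K := by
    ext x
    simp only [LinearMap.mem_ker, LinearMap.comp_apply]
    refine ⟨fun h => ?_, fun h => by rw [h, map_zero]⟩
    have h0 := inner_fix_diff hT (w := K x) (sub_eq_zero.1 ((hKx (K x)).symm.trans h)) x
    rw [← hKx] at h0
    exact inner_self_eq_zero.1 h0
  have hr : LinearMap.range (K ∘ₗ K) = LinearMap.range K := by
    refine Submodule.eq_of_le_of_finrank_eq (LinearMap.range_comp_le_range K K) ?_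
    have h1 := (K ∘ₗ K).finrank_range_add_finrank_ker
    have h2 := K.finrank_range_add_finrank_ker
    rw [hker] at h1
    omega
  obtain ⟨z, hz⟩ : K v ∈ LinearMap.range (K ∘ₗ K) := by
    rw [hr]; exact LinearMap.mem_range_self K v
  refine ⟨v - K z, z, ?_, by rw [hKx]; abel⟩
  have h : K (v - K z) = 0 := by rw [map_sub, ← LinearMap.comp_apply, hz, sub_self]
  exact sub_eq_zero.1 ((hKx _).symm.trans h)

/-- The powers of a linear isometry return to the identity with positive density. -/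
lemma recur_pow (hT : ∀ x, ‖T x‖ = ‖x‖) {η : ℝ} (hη : 0 < η) :
    ∃ M : ℕ, 0 < M ∧ ∀ N : ℕ, ∃ s : Finset ℕ, s ⊆ Finset.range (N + 1) ∧
      N + 1 ≤ M * s.card ∧ ∀ j ∈ s, ∀ x, ‖(T ^ j) x - x‖ ≤ η * ‖x‖ := by
  classical
  obtain ⟨t, -, htf, htc⟩ := finite_cover_balls_of_compact
    (isCompact_closedBall (0 : Ed d →L[ℝ] Ed d) 1) (half_pos hη)
  have hmem : ∀ k : ℕ, ∃ c ∈ htf.toFinset, T ^ k ∈ Metric.ball c (η / 2) := by
    intro k
    have h1 : T ^ k ∈ Metric.closedBall (0 : Ed d →L[ℝ] Ed d) 1 := by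
      rw [mem_closedBall_zero_iff]
      exact ContinuousLinearMap.opNorm_le_bound _ zero_le_one fun x => by
        rw [norm_pow_map hT, one_mul]
    obtain ⟨c, hc, hc'⟩ := Set.mem_iUnion₂.1 (htc h1)
    exact ⟨c, htf.mem_toFinset.2 hc, hc'⟩
  choose φ hφt hφ using hmem
  have hne : htf.toFinset.Nonempty := ⟨φ 0, hφt 0⟩
  refine ⟨htf.toFinset.card, hne.card_pos, fun N => ?_⟩
  obtain ⟨c, -, hmax⟩ := Finset.exists_max_image htf.toFinset
    (fun c => ((Finset.range (N + 1)).filter fun k => φ k = c).card) hne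
  set F := (Finset.range (N + 1)).filter fun k => φ k = c with hF
  have hcard : N + 1 ≤ htf.toFinset.card * F.card := by
    calc N + 1 = (Finset.range (N + 1)).card := (Finset.card_range _).symm
      _ = ∑ c ∈ htf.toFinset, ((Finset.range (N + 1)).filter fun k => φ k = c).card :=
          Finset.card_eq_sum_card_fiberwise fun k _ => hφt k
      _ ≤ _ := by simpa using Finset.sum_le_card_nsmul _ _ F.card hmax
  have hFne : F.Nonempty := by
    rw [← Finset.card_pos]
    exact Nat.pos_of_ne_zero fun h0 => by rw [h0, mul_zero] at hcard; omega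
  set k1 := F.min' hFne with hk1
  have hk1F : φ k1 = c := (Finset.mem_filter.1 (F.min'_mem hFne)).2
  have hle : ∀ k ∈ F, k1 ≤ k := fun k hk => F.min'_le k hk
  refine ⟨F.image fun k => k - k1, ?_, ?_, ?_⟩
  · intro j hj
    obtain ⟨k, hk, rfl⟩ := Finset.mem_image.1 hj
    have := Finset.mem_range.1 (Finset.mem_filter.1 hk).1
    exact Finset.mem_range.2 (by omega)
  · rwa [Finset.card_image_of_injOn]
    intro x hx y hy hxy
    have := hle x hx
    have := hle y hy
    simp only at hxy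
    omega
  · intro j hj x
    obtain ⟨k, hk, rfl⟩ := Finset.mem_image.1 hj
    rw [← norm_pow_map hT k1, map_sub, ← clm_pow_add, Nat.add_sub_cancel' (hle k hk),
      ← sub_apply]
    refine ((T ^ k - T ^ k1).le_opNorm x).trans (mul_le_mul_of_nonneg_right ?_ (norm_nonneg x))
    rw [← dist_eq_norm]
    have b1 := Metric.mem_ball.1 (hφ k)
    have b2 := Metric.mem_ball.1 (hφ k1)
    rw [(Finset.mem_filter.1 hk).2] at b1
    rw [hk1F, dist_comm] at b2
    linarith [dist_triangle (T ^ k) c (T ^ k1)]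

/-- Derivatives of a function invariant under an affine map. -/
lemma Dd_map {u : Ed d → ℝ} (hu : Differentiable ℝ u) {S : Ed d →L[ℝ] Ed d} {t : Ed d}
    (h : ∀ x, u (S x + t) = u x) (v x : Ed d) : Dd u (S v) (S x + t) = Dd u v x := by
  have h1 : HasFDerivAt (fun y => u (S y + t)) ((fderiv ℝ u (S x + t)).comp S) x :=
    (hu (S x + t)).hasFDerivAt.comp x (S.hasFDerivAt.add_const t)
  rw [funext h] at h1
  exact (congrArg (fun L : Ed d →L[ℝ] ℝ => L v) ((hu x).hasFDerivAt.unique h1)).symm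

/-- Iterates of an affine symmetry. -/
lemma inv_pow {u : Ed d → ℝ} {τ : Ed d} (hτ : T τ = τ) (hinv : ∀ x, u (T x + τ) = u x) (k : ℕ) :
    ∀ x, u ((T ^ k) x + (k : ℝ) • τ) = u x := by
  induction k with
  | zero => simp
  | succ k ih =>
    intro x
    conv_rhs => rw [← ih x, ← hinv]
    congr 1
    rw [map_add, map_smul, hτ, add_comm k 1, clm_pow_add, pow_one]
    push_cast
    module

/-- The fixed part of a monotone direction is a monotone direction. -/
lemma mono_fix (hT : ∀ x, ‖T x‖ = ‖x‖) {u : Ed d → ℝ} (hu : Differentiable ℝ u) {e : Ed d}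
    (hmono : ∀ x, 0 < Dd u e x) {τ : Ed d} (hτ : T τ = τ)
    (hinv : ∀ x, u (T x + τ) = u x) : ∃ f, T f = f ∧ ∀ x, 0 < Dd u f x := by
  obtain ⟨f, z, hf, he⟩ := split hT e
  refine ⟨f, hf, fun y => ?_⟩
  set L := fderiv ℝ u y with hL
  have hpos : ∀ k : ℕ, 0 < L ((T ^ k) e) := by
    intro k
    obtain ⟨x, hx⟩ := pow_surjective hT k (y - (k : ℝ) • τ)
    have h := Dd_map hu (inv_pow hτ hinv k) e x
    rw [hx, sub_add_cancel] at h
    exact lt_of_lt_of_eq (hmono x) h.symm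
  have he0 : 0 < L e := hmono y
  set a := L e / 2 with ha
  obtain ⟨M, hM, hrec⟩ := recur_pow hT (η := a / (‖L‖ * ‖e‖ + 1)) (by positivity)
  have hsum : ∀ N : ℕ, ∑ k ∈ Finset.range N, L ((T ^ k) e)
      = (N : ℝ) * L f + (L ((T ^ N) z) - L z) := by
    intro N
    induction N with
    | zero => simp
    | succ N ih =>
      have hfix : (T ^ N) f = f := by
        clear ih
        induction N with
        | zero => rfl
        | succ n ihn => rw [add_comm, clm_pow_add, pow_one, ihn, hf]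
      rw [Finset.sum_range_succ, ih, he, map_add (T ^ N), hfix, map_sub (T ^ N),
        ← pow_one T, ← pow_mul, one_mul, ← clm_pow_add, pow_one, map_add L, map_sub L]
      push_cast
      ring
  by_contra hneg
  have hLf : L f ≤ 0 := not_lt.1 hneg
  obtain ⟨N, hN⟩ := exists_nat_gt ((M : ℝ) * (2 * (‖L‖ * ‖z‖)) / a)
  obtain ⟨s, hs, hcard, hclose⟩ := hrec N
  have hterm : ∀ j ∈ s, a ≤ L ((T ^ j) e) := by
    intro j hj
    have hd : ‖e - (T ^ j) e‖ ≤ a / (‖L‖ * ‖e‖ + 1) * ‖e‖ := by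
      rw [norm_sub_rev]; exact hclose j hj e
    have h1 := (le_abs_self _).trans ((L.le_opNorm (e - (T ^ j) e)).trans
      (mul_le_mul_of_nonneg_left hd (norm_nonneg L)))
    rw [map_sub] at h1
    have h2 : ‖L‖ * (a / (‖L‖ * ‖e‖ + 1) * ‖e‖) ≤ a := by
      rw [mul_left_comm, div_mul_eq_mul_div]
      exact (div_le_iff₀ (by positivity)).2 (by nlinarith)
    linarith
  have h1 : (s.card : ℝ) * a ≤ ∑ k ∈ Finset.range (N + 1), L ((T ^ k) e) := by
    refine le_trans ?_ (Finset.sum_le_sum_of_subset_of_nonneg hs fun k _ _ => (hpos k).le)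
    rw [← nsmul_eq_mul]
    exact Finset.card_nsmul_le_sum _ _ _ hterm
  have h2 : L ((T ^ (N + 1)) z) - L z ≤ 2 * (‖L‖ * ‖z‖) := by
    have b1 := (le_abs_self _).trans (L.le_opNorm ((T ^ (N + 1)) z))
    have b2 := (neg_le_abs _).trans (L.le_opNorm z)
    rw [norm_pow_map hT] at b1
    linarith
  rw [hsum] at h1
  have h3 : ((N : ℝ) + 1) ≤ M * s.card := by exact_mod_cast hcard
  have h4 : ((N + 1 : ℕ) : ℝ) * L f ≤ 0 := mul_nonpos_of_nonneg_of_nonpos (Nat.cast_nonneg _) hLf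
  rw [div_lt_iff₀ (by positivity)] at hN
  nlinarith [mul_le_mul_of_nonneg_right h3 (show 0 ≤ a by positivity),
    mul_le_mul_of_nonneg_left (show (s.card : ℝ) * a ≤ 2 * (‖L‖ * ‖z‖) by linarith)
      (Nat.cast_nonneg (α := ℝ) M)]

end Vale.Agent.P134.Periodic
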