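/-
P134 (De Giorgi): four variables, a symmetry of infinite order gives one-dimensional symmetry.
-/
import Vale.Agent.P134.Sym.Recur

open MeasureTheory Filter Topology
open scoped InnerProductSpace

noncomputable section

namespace Vale.Agent.P134.Periodic

variable {T : Ed 4 →L[ℝ] Ed 4} {u : Ed 4 → ℝ} {e : Ed 4}

/-- A symmetry with a translation part. -/
lemma case_screw (hT : ∀ x, ‖T x‖ = ‖x‖) (h : Sol u) (hmono : ∀ x, 0 < Dd u e x) {τ : Ed 4}
    (hτ0 : τ ≠ 0) (hτ : T τ = τ) (hinv : ∀ x, u (T x + τ) = u x) :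
    ∃ ω : Ed 4, ‖ω‖ = 1 ∧ ∃ p : ℝ → ℝ, ∀ x, u x = p ⟪ω, x⟫_ℝ := by
  classical
  have hdiff := h.smooth.differentiable (by norm_num)
  have hspan : e ∉ Submodule.span ℝ (Set.range fun _ : Fin 1 => τ) := by
    intro hmem
    rw [Set.range_const, Submodule.mem_span_singleton] at hmem
    obtain ⟨c, hc⟩ := hmem
    have hc0 : c ≠ 0 := fun h0 => by
      have := hmono 0
      rw [← hc, h0] at this
      simp [Dd] at this
    have h1 : u τ = u 0 := by simpa using hinv 0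
    have h2 := (strictMono_line hdiff hmono (0 : Ed 4)).injective
      (a₁ := c⁻¹) (a₂ := 0) (by
        simp only [zero_add, zero_smul]
        rw [← hc, inv_smul_smul₀ hc0]
        exact h1)
    exact inv_ne_zero hc0 h2
  refine (lattice_main (τ := fun _ : Fin 1 => τ) (by norm_num)
    (linearIndependent_unique_iff.2 hτ0) h hmono hspan).2 fun R ε hε => ?_
  obtain ⟨G0, hG0, hG⟩ := exists_grad_bound 4
  have hlip : ∀ x y, |u x - u y| ≤ G0 * ‖x - y‖ := fun x y => by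
    rw [← Real.norm_eq_abs]
    exact Convex.norm_image_sub_le_of_norm_fderiv_le (s := Set.univ) (fun z _ => hdiff z)
      (fun z _ => hG u h z) convex_univ (Set.mem_univ _) (Set.mem_univ _)
  obtain ⟨M, hM, hrec⟩ := recur_pow hT (η := ε / (G0 * |R| + 1)) (by positivity)
  refine ⟨1 / (2 * (M : ℝ)), by positivity, Frequently.of_forall fun N => ?_⟩
  obtain ⟨s, hs, hcard, hclose⟩ := hrec N
  have hle : s.card ≤ cnt 1 N (ret u (fun _ => τ) R ε) := by
    rw [cnt_eq]
    refine Finset.card_le_card_of_injOn (fun j _ => (j : ℤ)) (fun j hj => ?_) fun a _ b _ hab => ?_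
    · refine Finset.mem_filter.2 ⟨mem_lat.2 fun i => ?_, fun x hx => ?_⟩
      · have := Finset.mem_range.1 (hs hj)
        rw [Nat.abs_cast]; omega
      · obtain ⟨y, hy⟩ := pow_surjective hT j x
        have e1 := inv_pow hτ hinv j y
        rw [hy] at e1
        have e2 : sh (fun _ : Fin 1 => τ) (fun _ => (j : ℤ)) = (j : ℝ) • τ := by simp [sh]
        rw [e2, e1]
        have hny : ‖y‖ ≤ |R| := by
          rw [← norm_pow_map hT j, hy]; exact hx.trans (le_abs_self R)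
        refine (hlip y x).trans ?_
        rw [norm_sub_rev, ← hy]
        refine (mul_le_mul_of_nonneg_left ((hclose j hj y).trans
          (mul_le_mul_of_nonneg_left hny (by positivity))) hG0).trans ?_
        rw [mul_left_comm, div_mul_eq_mul_div, div_le_iff₀ (by positivity)]
        nlinarith [abs_nonneg R]
    · exact Nat.cast_injective (congrFun hab 0)
  have h3 : ((N : ℝ) + 1) ≤ M * (cnt 1 N (ret u (fun _ => τ) R ε)) := by
    exact_mod_cast hcard.trans (Nat.mul_le_mul_left M hle)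
  rw [pow_one, div_mul_eq_mul_div, one_mul, div_le_iff₀ (by positivity)]
  linarith

/-- The limit rotation field of a symmetry of infinite order. -/
lemma skew_limit (hT : ∀ x, ‖T x‖ = ‖x‖) (hu : ContDiff ℝ 2 u) (he : T e = e)
    (hinf : ∀ k : ℕ, 0 < k → T ^ k ≠ 1) (hinv : ∀ x, u (T x) = u x) :
    ∃ K : Ed 4 →L[ℝ] Ed 4, K ≠ 0 ∧ (∀ x y, ⟪x, K y⟫_ℝ = -⟪K x, y⟫_ℝ) ∧ K e = 0 ∧
      ∀ x, Dd u (K x) x = 0 := by
  classical
  have hinvk : ∀ k x, u ((T ^ k) x) = u x := fun k x => by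
    simpa using inv_pow (τ := 0) (map_zero T) (fun y => by simpa using hinv y) k x
  have hfixk : ∀ k, (T ^ k) e = e := by
    intro k
    induction k with
    | zero => rfl
    | succ n ih => rw [add_comm, clm_pow_add, pow_one, ih, he]
  have hex : ∀ j : ℕ, ∃ k : ℕ, 0 < k ∧ ∀ x, ‖(T ^ k) x - x‖ ≤ 1 / ((j : ℝ) + 1) * ‖x‖ := by
    intro j
    obtain ⟨M, hM, hrec⟩ := recur_pow hT (η := 1 / ((j : ℝ) + 1)) (by positivity)
    obtain ⟨s, -, hcard, hclose⟩ := hrec (2 * M)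
    have h1 : 1 < s.card := by nlinarith
    obtain ⟨k, hk, hk0⟩ := Finset.exists_mem_ne h1 0
    exact ⟨k, Nat.pos_of_ne_zero hk0, hclose k hk⟩
  choose k hk0 hk using hex
  set B : ℕ → (Ed 4 →L[ℝ] Ed 4) := fun j => T ^ k j - 1 with hB
  have hB0 : ∀ j, 0 < ‖B j‖ := fun j => norm_pos_iff.2 (sub_ne_zero.2 (hinf _ (hk0 j)))
  have hBx : ∀ j x, B j x = (T ^ k j) x - x := fun j x => rfl
  have hBle : ∀ j, ‖B j‖ ≤ 1 / ((j : ℝ) + 1) := fun j =>
    ContinuousLinearMap.opNorm_le_bound _ (by positivity) fun x => by rw [hBx]; exact hk j x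
  obtain ⟨K, hK1, φ, hφ, hlim⟩ := (isCompact_sphere (0 : Ed 4 →L[ℝ] Ed 4) 1).tendsto_subseq
    (x := fun j => ‖B j‖⁻¹ • B j) (fun j => by
      rw [mem_sphere_zero_iff_norm, norm_smul, norm_inv, norm_norm, inv_mul_cancel₀ (hB0 j).ne'])
  rw [mem_sphere_zero_iff_norm] at hK1
  have happ : ∀ x, Tendsto (fun j => ‖B (φ j)‖⁻¹ • B (φ j) x) atTop (𝓝 (K x)) := fun x =>
    ((ContinuousLinearMap.apply ℝ (Ed 4) x).continuous.tendsto K).comp hlim
  have hBlim : Tendsto (fun j => ‖B (φ j)‖) atTop (𝓝 0) :=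
    squeeze_zero (fun j => norm_nonneg _) (fun j => hBle (φ j))
      (tendsto_one_div_add_atTop_nhds_zero_nat.comp hφ.tendsto_atTop)
  have hsk : ∀ x y, ⟪K x, y⟫_ℝ + ⟪x, K y⟫_ℝ = 0 := by
    intro x y
    have h1 := (((happ x).inner tendsto_const_nhds).add
      (tendsto_const_nhds.inner (happ y)) : Tendsto (fun j =>
        ⟪‖B (φ j)‖⁻¹ • B (φ j) x, y⟫_ℝ + ⟪x, ‖B (φ j)‖⁻¹ • B (φ j) y⟫_ℝ) atTop _)
    have h2 : Tendsto (fun j => -(‖B (φ j)‖ *
        ⟪‖B (φ j)‖⁻¹ • B (φ j) x, ‖B (φ j)‖⁻¹ • B (φ j) y⟫_ℝ)) atTop (𝓝 0) := by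
      simpa using (hBlim.mul ((happ x).inner (happ y))).neg
    refine tendsto_nhds_unique h1 (h2.congr fun j => ?_)
    have h0 : ⟪x + B (φ j) x, y + B (φ j) y⟫_ℝ = ⟪x, y⟫_ℝ := by
      rw [hBx, hBx, add_sub_cancel, add_sub_cancel]
      exact inner_map (norm_pow_map hT _) x y
    simp only [inner_add_left, inner_add_right] at h0
    simp only [real_inner_smul_left, real_inner_smul_right]
    have hne := (hB0 (φ j)).ne'
    field_simp
    linarith
  have hKe : K e = 0 := by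
    refine tendsto_nhds_unique (happ e) (tendsto_const_nhds.congr fun j => ?_)
    rw [hBx, hfixk, sub_self, smul_zero]
  have hgrad : ∀ x, Dd u (K x) x = 0 := by
    intro x
    choose t ht hts using fun j => dq_slope hu (B (φ j) x) one_pos x
    have hz : ∀ j, Dd u (‖B (φ j)‖⁻¹ • B (φ j) x) (x + t j • B (φ j) x) = 0 := by
      intro j
      have h0 : dq u (B (φ j) x) 1 x = 0 := by
        rw [dq, one_smul, hBx, add_sub_cancel, hinvk, sub_self, zero_div]
      have h1 : fderiv ℝ u (x + t j • B (φ j) x) (B (φ j) x) = 0 := (hts j).symm.trans h0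
      rw [Dd, map_smul, h1, smul_zero]
    have hy : Tendsto (fun j => x + t j • B (φ j) x) atTop (𝓝 x) := by
      have h0 : Tendsto (fun j => t j • B (φ j) x) atTop (𝓝 0) := by
        refine squeeze_zero_norm (fun j => ?_) (show Tendsto (fun j => ‖B (φ j)‖ * ‖x‖) atTop
          (𝓝 0) by simpa using hBlim.mul_const ‖x‖)
        rw [norm_smul, Real.norm_eq_abs, abs_of_pos (ht j).1]
        exact (mul_le_of_le_one_left (norm_nonneg _) (ht j).2.le).trans ((B (φ j)).le_opNorm x)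
      simpa using h0.const_add x
    have hc := (((hu.continuous_fderiv (by norm_num)).comp continuous_fst).clm_apply
      continuous_snd : Continuous fun p : Ed 4 × Ed 4 => fderiv ℝ u p.1 p.2)
    have h3 := (hc.tendsto (x, K x)).comp (hy.prodMk_nhds (happ x))
    exact tendsto_nhds_unique h3 (tendsto_const_nhds.congr fun j => (hz j).symm)
  exact ⟨K, fun h0 => by simp [h0] at hK1, fun x y => by linarith [hsk x y], hKe, hgrad⟩

/-- A skew map vanishing on a line of four-dimensional space, with a prescribed plane. -/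
lemma skew_plane {K : Ed 4 →L[ℝ] Ed 4} (hskew : ∀ x y, ⟪x, K y⟫_ℝ = -⟪K x, y⟫_ℝ)
    (Bs : OrthonormalBasis (Fin 4) ℝ (Ed 4)) {f a b v : Ed 4} (B0 : Bs 0 = f) (B1 : Bs 1 = a)
    (B2 : Bs 2 = b) (hKf : K f = 0) {lam σ : ℝ} (hKab : K a = lam • b) (hσ : σ ≠ 0)
    (hKv : K v = σ • a) (w : Ed 4) : K w = lam • (⟪a, w⟫_ℝ • b - ⟪b, w⟫_ℝ • a) := by
  set c := Bs 3 with hc
  set ν := ⟪c, K b⟫_ℝ with hν
  have hon := orthonormal_iff_ite.1 Bs.orthonormal
  have haa : ⟪a, a⟫_ℝ = 1 := by rw [← B1, hon, if_pos rfl]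
  have hbb : ⟪b, b⟫_ℝ = 1 := by rw [← B2, hon, if_pos rfl]
  have hcc : ⟪c, c⟫_ℝ = 1 := by rw [hc, hon, if_pos rfl]
  have hab : ⟪a, b⟫_ℝ = 0 := by rw [← B1, ← B2, hon, if_neg (by decide)]
  have hac : ⟪a, c⟫_ℝ = 0 := by rw [← B1, hc, hon, if_neg (by decide)]
  have hbc : ⟪b, c⟫_ℝ = 0 := by rw [← B2, hc, hon, if_neg (by decide)]
  have hself : ∀ x, ⟪x, K x⟫_ℝ = 0 := fun x => by
    have := hskew x x
    rw [real_inner_comm x (K x)] at this
    linarith
  have hexp : ∀ w, w = ⟪f, w⟫_ℝ • f + ⟪a, w⟫_ℝ • a + ⟪b, w⟫_ℝ • b + ⟪c, w⟫_ℝ • c := fun w => by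
    conv_lhs => rw [← Bs.sum_repr' w, Fin.sum_univ_four, B0, B1, B2, ← hc]
  have hfK : ∀ w, ⟪f, K w⟫_ℝ = 0 := fun w => by rw [hskew, hKf, inner_zero_left, neg_zero]
  have hab' : ⟪a, K b⟫_ℝ = -lam := by
    rw [hskew, hKab, real_inner_smul_left, hbb, mul_one]
  have hac' : ⟪a, K c⟫_ℝ = 0 := by
    rw [hskew, hKab, real_inner_smul_left, hbc, mul_zero, neg_zero]
  have hbc' : ⟪b, K c⟫_ℝ = -ν := by rw [hskew, real_inner_comm c (K b), hν]
  have hKc : K c = (-ν) • b := by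
    rw [hexp (K c), hfK, hac', hbc', hself, zero_smul, zero_smul, zero_smul]
    simp only [zero_add, add_zero]
  have hKb : K b = (-lam) • a + ν • c := by
    rw [hexp (K b), hfK, hab', hself, ← hν, zero_smul, zero_smul]
    simp only [zero_add, add_zero]
  have hK : ∀ w, K w = (⟪a, w⟫_ℝ * lam - ν * ⟪c, w⟫_ℝ) • b
      + ⟪b, w⟫_ℝ • ((-lam) • a + ν • c) := fun w => by
    conv_lhs => rw [hexp w]
    simp only [map_add, map_smul, hKf, hKab, hKb, hKc, smul_zero, zero_add]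
    module
  have hν0 : ν = 0 := by
    have e1 : ⟪c, K v⟫_ℝ = ⟪b, v⟫_ℝ * ν := by
      rw [hK v]
      simp only [inner_add_right, real_inner_smul_right, hcc, real_inner_comm b c,
        real_inner_comm a c, hbc, hac]
      ring
    have e2 : ⟪a, K v⟫_ℝ = -(⟪b, v⟫_ℝ * lam) := by
      rw [hK v]
      simp only [inner_add_right, real_inner_smul_right, haa, hab, hac]
      ring
    rw [hKv, real_inner_smul_right, real_inner_comm a c, hac, mul_zero] at e1
    rw [hKv, real_inner_smul_right, haa, mul_one] at e2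
    refine (mul_eq_zero.1 e1.symm).resolve_left fun h0 => ?_
    rw [h0, zero_mul, neg_zero] at e2
    exact hσ e2
  rw [hK, hν0]
  module

/-- Three orthonormal vectors of four-dimensional space extend to a basis. -/
lemma extend_three {f a b : Ed 4} (hnf : ‖f‖ = 1) (hna : ‖a‖ = 1) (hnb : ‖b‖ = 1)
    (hfa : ⟪f, a⟫_ℝ = 0) (hfb : ⟪f, b⟫_ℝ = 0) (hab : ⟪a, b⟫_ℝ = 0) :
    ∃ Bs : OrthonormalBasis (Fin 4) ℝ (Ed 4), Bs 0 = f ∧ Bs 1 = a ∧ Bs 2 = b := by
  have hun : ∀ z : Ed 4, ‖z‖ = 1 → ⟪z, z⟫_ℝ = 1 := fun z hz => by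
    rw [real_inner_self_eq_norm_sq, hz, one_pow]
  obtain ⟨Bs, hBs⟩ := Orthonormal.exists_orthonormalBasis_extension_of_card_eq
    (𝕜 := ℝ) (E := Ed 4) (ι := Fin 4) (v := ![f, a, b, 0]) (s := ({3}ᶜ : Set (Fin 4)))
    (finrank_euclideanSpace_fin.trans (Fintype.card_fin 4).symm) (by
      have h1 := (real_inner_comm f a).trans hfa
      have h2 := (real_inner_comm f b).trans hfb
      have h3 := (real_inner_comm a b).trans hab
      rw [orthonormal_iff_ite]
      rintro ⟨i, hi⟩ ⟨j, hj⟩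
      simp only [Set.mem_compl_iff, Set.mem_singleton_iff] at hi hj
      simp only [Subtype.mk.injEq]
      fin_cases i
      all_goals fin_cases j
      all_goals first
        | exact absurd rfl hi
        | exact absurd rfl hj
        | exact hun _ ‹_›
        | assumption)
  exact ⟨Bs, hBs 0 (by decide), hBs 1 (by decide), hBs 2 (by decide)⟩

/-- A symmetry without translation part. -/
lemma case_rot (hT : ∀ x, ‖T x‖ = ‖x‖) (h : Sol u) (hmono : ∀ x, 0 < Dd u e x) (he : T e = e)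
    (hinf : ∀ k : ℕ, 0 < k → T ^ k ≠ 1) (hinv : ∀ x, u (T x) = u x) :
    ∃ ω : Ed 4, ‖ω‖ = 1 ∧ ∃ p : ℝ → ℝ, ∀ x, u x = p ⟪ω, x⟫_ℝ := by
  classical
  obtain ⟨K, hK0, hskew, hKe, hgrad⟩ := skew_limit hT h.smooth he hinf hinv
  have hself : ∀ x, ⟪x, K x⟫_ℝ = 0 := fun x => by
    have := hskew x x
    rw [real_inner_comm x (K x)] at this
    linarith
  obtain ⟨v, hv⟩ : ∃ v, K v ≠ 0 := by
    by_contra hall
    push Not at hall
    exact hK0 (ContinuousLinearMap.ext hall)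
  set a : Ed 4 := ‖K v‖⁻¹ • K v with ha
  have hna : ‖a‖ = 1 := by
    rw [ha, norm_smul, norm_inv, norm_norm, inv_mul_cancel₀ (norm_ne_zero_iff.2 hv)]
  have hKa : K a ≠ 0 := by
    intro h0
    have h1 : ⟪a, K v⟫_ℝ = 0 := by rw [hskew, h0, inner_zero_left, neg_zero]
    rw [ha, real_inner_smul_left, real_inner_self_eq_norm_sq] at h1
    simp [hv] at h1
  set lam := ‖K a‖ with hlam
  have hlam0 : 0 < lam := norm_pos_iff.2 hKa
  set b : Ed 4 := lam⁻¹ • K a with hb
  have hKab : K a = lam • b := by rw [hb, smul_inv_smul₀ hlam0.ne']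
  have hnb : ‖b‖ = 1 := by
    rw [hb, norm_smul, norm_inv, hlam, norm_norm, inv_mul_cancel₀ (norm_ne_zero_iff.2 hKa)]
  have hab : ⟪a, b⟫_ℝ = 0 := by rw [hb, real_inner_smul_right, hself, mul_zero]
  have he0 : e ≠ 0 := fun h0 => by
    have := hmono 0
    simp [Dd, h0] at this
  have hea : ⟪a, e⟫_ℝ = 0 := by
    rw [ha, real_inner_smul_left, ← neg_eq_iff_eq_neg.2 (hskew v e), hKe, inner_zero_right,
      neg_zero, mul_zero]
  have heb : ⟪b, e⟫_ℝ = 0 := by
    rw [hb, real_inner_smul_left, ← neg_eq_iff_eq_neg.2 (hskew a e), hKe, inner_zero_right,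
      neg_zero, mul_zero]
  set f : Ed 4 := ‖e‖⁻¹ • e with hf
  have hnf : ‖f‖ = 1 := by
    rw [hf, norm_smul, norm_inv, norm_norm, inv_mul_cancel₀ (norm_ne_zero_iff.2 he0)]
  have hfa : ⟪f, a⟫_ℝ = 0 := by rw [hf, real_inner_smul_left, real_inner_comm a e, hea, mul_zero]
  have hfb : ⟪f, b⟫_ℝ = 0 := by rw [hf, real_inner_smul_left, real_inner_comm b e, heb, mul_zero]
  obtain ⟨Bs, B0, B1, B2⟩ := extend_three hnf hna hnb hfa hfb hab
  have hKw := skew_plane hskew Bs B0 B1 B2 (by rw [hf, map_smul, hKe, smul_zero]) hKab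
    (norm_ne_zero_iff.2 hv) (by rw [ha, smul_inv_smul₀ (norm_ne_zero_iff.2 hv)])
  clear_value a b lam
  refine axial_four rfl h hmono ⟨hna, hnb, hab⟩ hea heb fun x => ?_
  have h0 : fderiv ℝ u x (lam • (⟪a, x⟫_ℝ • b - ⟪b, x⟫_ℝ • a)) = 0 := by
    rw [← hKw x]; exact hgrad x
  rw [map_smul, map_sub, map_smul, map_smul, smul_eq_mul, smul_eq_mul, smul_eq_mul,
    mul_eq_zero] at h0
  exact sub_eq_zero.1 (h0.resolve_left hlam0.ne')

/-- In four variables a symmetry of infinite order forces one-dimensional symmetry. -/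
theorem symmetry_four (h : Sol u) (hmono : ∀ x, 0 < Dd u e x) {g : Ed 4 → Ed 4} (hg : Isometry g)
    (hinv : ∀ x, u (g x) = u x) (hinf : ∀ k : ℕ, 0 < k → ∃ x, g^[k] x ≠ x) :
    ∃ ω : Ed 4, ‖ω‖ = 1 ∧ ∃ p : ℝ → ℝ, ∀ x, u x = p ⟪ω, x⟫_ℝ := by
  set T := hg.affineIsometryOfStrictConvexSpace.linearIsometry.toContinuousLinearMap with hTdef
  have hT : ∀ x, ‖T x‖ = ‖x‖ :=
    hg.affineIsometryOfStrictConvexSpace.linearIsometry.norm_map
  have hgx : ∀ x, g x = T x + g 0 := fun x => by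
    have := hg.affineIsometryOfStrictConvexSpace.map_vadd 0 x
    simp only [vadd_eq_add, add_zero] at this
    exact this
  obtain ⟨τ, z, hτ, hb⟩ := split hT (g 0)
  -- recentre on the axis
  set w : Ed 4 → ℝ := fun x => u (x + -z) with hwdef
  have hgz : ∀ x, g (x + -z) = T x + τ + -z := fun x => by
    rw [hgx, hb, map_add, map_neg]; abel
  have hwinv : ∀ x, w (T x + τ) = w x := fun x => by
    simp only [hwdef, ← hgz, hinv]
  have hw := h.translate (-z)
  have hwmono : ∀ x, 0 < Dd w e x := fun x => by rw [hwdef, Dd_translate]; exact hmono _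
  obtain ⟨f, hf, hfmono⟩ := mono_fix hT (hw.smooth.differentiable (by norm_num)) hwmono hτ hwinv
  obtain ⟨ω, hω, p, hp⟩ : ∃ ω : Ed 4, ‖ω‖ = 1 ∧ ∃ p : ℝ → ℝ, ∀ x, w x = p ⟪ω, x⟫_ℝ := by
    by_cases hτ0 : τ = 0
    · refine case_rot hT hw hfmono hf (fun k hk hk1 => ?_) fun x => by simpa [hτ0] using hwinv x
      obtain ⟨y, hy⟩ := hinf k hk
      have hit : ∀ j x, g^[j] (x + -z) = (T ^ j) x + -z := by
        intro j
        induction j with
        | zero => simp
        | succ j ih =>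
          intro x
          rw [Function.iterate_succ_apply', ih, hgz, hτ0, add_zero, add_comm j 1, clm_pow_add,
            pow_one]
      refine hy ?_
      have := hit k (y + z)
      rw [hk1] at this
      simpa using this
    · exact case_screw hT hw hfmono hτ0 hτ hwinv
  refine ⟨ω, hω, fun t => p (t + ⟪ω, z⟫_ℝ), fun x => ?_⟩
  have := hp (x + z)
  simp only [hwdef, add_neg_cancel_right, inner_add_right] at this
  exact this

end Vale.Agent.P134.Periodic
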